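import Vale.Agent.P069.WT.Space
attribute [-instance] ProperSMul.toContinuousSMul IsTopologicalTorsor.toContinuousSMul IdemSemiring.toCanonicallyOrderedAdd IdemSemiring.toMulLeftMono IdemSemiring.toMulRightMono AddQuantale.instAddLeftMono AddQuantale.instAddRightMono Quantale.instMulLeftMono Quantale.instMulRightMono FiniteDimensional.rclike_to_real IsScalarTower.complexToReal FiniteDimensional.complexToReal

/-!
# Reflexivity of the James-tree space, given that the coordinate functionals span a dense subspace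
-/

open Filter Topology TopologicalSpace Finset
open scoped ENNReal

namespace Vale.Agent.P069.WT

open JT

/-- The closure of a finite set of nodes under initial segments. -/
def cl (s : Finset (List ℕ)) : Finset (List ℕ) := insert [] (s.biUnion fun t => t.tails.toFinset)

lemma mem_cl {s : Finset (List ℕ)} {u : List ℕ} : u ∈ cl s ↔ u = [] ∨ ∃ t ∈ s, u <:+ t := by
  rw [cl, mem_insert, mem_biUnion]
  simp only [List.mem_toFinset, List.mem_tails]

lemma nil_mem_cl (s : Finset (List ℕ)) : [] ∈ cl s := mem_cl.2 (Or.inl rfl)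

lemma cl_closed (s : Finset (List ℕ)) (k : ℕ) (t : List ℕ) (h : k :: t ∈ cl s) : t ∈ cl s := by
  rw [mem_cl] at h ⊢
  rcases h with h | ⟨u, hu, h⟩
  · exact absurd h (List.cons_ne_nil k t)
  · exact Or.inr ⟨u, hu, (List.suffix_cons k t).trans h⟩

lemma cl_mono {s s' : Finset (List ℕ)} (h : s ⊆ s') : cl s ⊆ cl s' := by
  intro u hu
  rw [mem_cl] at hu ⊢
  rcases hu with hu | ⟨t, ht, hu⟩
  · exact Or.inl hu
  · exact Or.inr ⟨t, h ht, hu⟩

lemma subset_cl (s : Finset (List ℕ)) : s ⊆ cl s := fun u hu =>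
  mem_cl.2 (Or.inr ⟨u, hu, List.suffix_refl u⟩)

variable {T : Set (List ℕ)}

/-- The function with the values `c` on `D`. -/
noncomputable def wD (c : List ℕ → ℝ) (D : Finset (List ℕ)) : EE := ∑ t ∈ D, c t • ev t

lemma wD_apply (c : List ℕ → ℝ) (D : Finset (List ℕ)) (s : List ℕ) :
    wD c D s = if s ∈ D then c s else 0 := by
  classical
  rw [wD, Finsupp.finsetSum_apply]
  split_ifs with hs
  · rw [sum_eq_single s]
    · rw [Finsupp.smul_apply, ev_self, smul_eq_mul, mul_one]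
    · intro t _ ht
      rw [Finsupp.smul_apply, ev_ne ht.symm, smul_zero]
    · intro h; exact absurd hs h
  · refine sum_eq_zero fun t ht => ?_
    rw [Finsupp.smul_apply, ev_ne (by rintro rfl; exact hs ht), smul_zero]

lemma pr_wD (c : List ℕ → ℝ) {D D' : Finset (List ℕ)} (h : D ⊆ D') :
    pr (D : Set (List ℕ)) (wD c D') = wD c D := by
  ext s
  rw [wD_apply]
  by_cases hs : s ∈ D
  · rw [pr_mem _ (mem_coe.2 hs), wD_apply, if_pos hs, if_pos (h hs)]
  · rw [pr_not_mem _ (fun h => hs (mem_coe.1 h)), if_neg hs]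

lemma toY_wD (c : List ℕ → ℝ) (D : Finset (List ℕ)) :
    toY T (wD c D) = ∑ t ∈ D, c t • toY T (ev t) := by
  rw [wD, map_sum]
  exact sum_congr rfl fun t _ => map_smul _ _ _

lemma key_eq (f : StrongDual ℝ (YT T)) (t : List ℕ) (w : EE) :
    f (toY T (ev t)) * es T t (toY T w) = w t * f (toY T (ev t)) := by
  cases t with
  | nil => rw [toY_ev_nil, map_zero, zero_mul, mul_zero]
  | cons k t =>
    by_cases h : k :: t ∈ T
    · rw [es_toY_cons, pr_mem _ h, mul_comm]
    · rw [toY_ev_of_not_mem h, map_zero, zero_mul, mul_zero]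

lemma norm_comb_le (f : StrongDual ℝ (YT T)) (hf : ‖f‖ ≤ 1) {D : Finset (List ℕ)}
    (h0 : [] ∈ D) (hD : ∀ k t, k :: t ∈ D → t ∈ D) :
    ‖∑ t ∈ D, f (toY T (ev t)) • es T t‖ ≤ 1 := by
  refine ContinuousLinearMap.opNorm_le_bound _ zero_le_one fun y => ?_
  refine (denseRange_toY T).induction_on (p := fun y =>
    ‖(∑ t ∈ D, f (toY T (ev t)) • es T t) y‖ ≤ 1 * ‖y‖) y ?_ fun w => ?_
  · exact isClosed_le (ContinuousLinearMap.continuous _).norm (continuous_const.mul continuous_norm)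
  · have h1 : (∑ t ∈ D, f (toY T (ev t)) • es T t) (toY T w) =
        f (toY T (pr (D : Set (List ℕ)) w)) := by
      rw [_root_.sum_apply, toY_pr_finset, map_sum]
      refine sum_congr rfl fun t _ => ?_
      rw [map_smul, smul_apply, smul_eq_mul, smul_eq_mul, key_eq]
    rw [h1, one_mul]
    calc ‖f (toY T (pr (D : Set (List ℕ)) w))‖ ≤ ‖f‖ * ‖toY T (pr (D : Set (List ℕ)) w)‖ :=
          f.le_opNorm _
      _ ≤ 1 * ‖toY T (pr (D : Set (List ℕ)) w)‖ := by gcongr
      _ ≤ ‖toY T w‖ := by rw [one_mul]; exact norm_toY_pr_le T h0 hD w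

lemma norm_toY_wD_le (Φ : StrongDual ℝ (StrongDual ℝ (YT T))) {D : Finset (List ℕ)}
    (h0 : [] ∈ D) (hD : ∀ k t, k :: t ∈ D → t ∈ D) :
    ‖toY T (wD (fun t => Φ (es T t)) D)‖ ≤ ‖Φ‖ := by
  obtain ⟨f, hf, hfy⟩ := exists_dual_vector'' ℝ (toY T (wD (fun t => Φ (es T t)) D))
  have h1 : f (toY T (wD (fun t => Φ (es T t)) D)) = Φ (∑ t ∈ D, f (toY T (ev t)) • es T t) := by
    rw [toY_wD, map_sum, map_sum]
    refine sum_congr rfl fun t _ => ?_
    rw [map_smul, map_smul, smul_eq_mul, smul_eq_mul, mul_comm]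
  have h2 : ‖toY T (wD (fun t => Φ (es T t)) D)‖ = Φ (∑ t ∈ D, f (toY T (ev t)) • es T t) := by
    rw [← h1, hfy]; rfl
  rw [h2]
  calc Φ (∑ t ∈ D, f (toY T (ev t)) • es T t)
      ≤ ‖Φ (∑ t ∈ D, f (toY T (ev t)) • es T t)‖ := le_abs_self _
    _ ≤ ‖Φ‖ * ‖∑ t ∈ D, f (toY T (ev t)) • es T t‖ := Φ.le_opNorm _
    _ ≤ ‖Φ‖ * 1 := by gcongr; exact norm_comb_le f hf h0 hD
    _ = ‖Φ‖ := mul_one _

lemma es_eq_zero {t : List ℕ} (h : t ∉ T) : es T t = 0 := by
  cases t with
  | nil => exact es_nil T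
  | cons k t =>
    ext y
    refine (denseRange_toY T).induction_on (p := fun y =>
      es T (k :: t) y = (0 : StrongDual ℝ (YT T)) y) y ?_ fun w => ?_
    · exact isClosed_eq (ContinuousLinearMap.continuous _) (ContinuousLinearMap.continuous _)
    · rw [es_toY_cons, pr_not_mem _ h]; rfl

lemma es_toY_wD (Φ : StrongDual ℝ (StrongDual ℝ (YT T))) {D : Finset (List ℕ)} {t : List ℕ}
    (ht : t ∈ D) : es T t (toY T (wD (fun t => Φ (es T t)) D)) = Φ (es T t) := by
  by_cases h : t ∈ T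
  · cases t with
    | nil => rw [es_nil, map_zero]; rfl
    | cons k t => rw [es_toY_cons, pr_mem _ h, wD_apply, if_pos ht]
  · rw [es_eq_zero h, map_zero]; rfl

/-- If the coordinate functionals span a dense subspace of the dual, the space is reflexive. -/
theorem isReflexive_YT {T : Set (List ℕ)} (h : DenseRange (fs T)) : IsReflexive (YT T) := by
  classical
  intro Φ
  let c : List ℕ → ℝ := fun t => Φ (es T t)
  let y : Finset (List ℕ) → YT T := fun s => toY T (wD c (cl s))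
  have hle : ∀ s, ‖y s‖ ≤ ‖Φ‖ := fun s => norm_toY_wD_le Φ (nil_mem_cl s) (cl_closed s)
  have hlow : ∀ s s' : Finset (List ℕ), s ⊆ s' → ‖y s‖ ^ 2 + ‖y s' - y s‖ ^ 2 ≤ ‖y s'‖ ^ 2 := by
    intro s s' hs
    have h1 := toY_lower_two T (nil_mem_cl s) (cl_closed s) (wD c (cl s'))
    rw [pr_wD c (cl_mono hs), map_sub] at h1
    exact h1
  have hmono : Monotone fun s => ‖y s‖ ^ 2 := fun s s' hs => by
    have := hlow s s' hs
    have h2 := sq_nonneg ‖y s' - y s‖
    change ‖y s‖ ^ 2 ≤ ‖y s'‖ ^ 2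
    linarith
  have hbdd : BddAbove (Set.range fun s => ‖y s‖ ^ 2) := by
    refine ⟨‖Φ‖ ^ 2, ?_⟩
    rintro _ ⟨s, rfl⟩
    exact pow_le_pow_left₀ (norm_nonneg _) (hle s) 2
  have hcau : CauchySeq y := by
    rw [Metric.cauchySeq_iff']
    intro ε hε
    obtain ⟨s0, hs0⟩ := exists_lt_of_lt_ciSup
      (show (⨆ s, ‖y s‖ ^ 2) - ε ^ 2 < ⨆ s, ‖y s‖ ^ 2 by
        have : 0 < ε ^ 2 := by positivity
        linarith)
    refine ⟨s0, fun s hs => ?_⟩
    have h1 := hlow s0 s hs
    have h2 : ‖y s‖ ^ 2 ≤ ⨆ s, ‖y s‖ ^ 2 := le_ciSup hbdd s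
    rw [dist_eq_norm]
    have h3 : ‖y s - y s0‖ ^ 2 < ε ^ 2 := by linarith
    exact lt_of_pow_lt_pow_left₀ 2 hε.le h3
  obtain ⟨x, hx⟩ := cauchySeq_tendsto_of_complete hcau
  refine ⟨x, ?_⟩
  have hes : ∀ t, es T t x = Φ (es T t) := by
    intro t
    have h1 : Tendsto (fun s => es T t (y s)) atTop (𝓝 (es T t x)) :=
      ((es T t).continuous.tendsto x).comp hx
    have h2 : Tendsto (fun s => es T t (y s)) atTop (𝓝 (Φ (es T t))) := by
      refine tendsto_const_nhds.congr' ?_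
      filter_upwards [eventually_ge_atTop ({t} : Finset (List ℕ))] with s hs
      exact (es_toY_wD Φ (subset_cl s (hs (mem_singleton_self t)))).symm
    exact tendsto_nhds_unique h1 h2
  have hfun : (fun f : StrongDual ℝ (YT T) => f x) = fun f => Φ f := by
    refine h.equalizer ?_ Φ.continuous ?_
    · exact (NormedSpace.inclusionInDoubleDual ℝ (YT T) x).continuous
    · funext a
      change fs T a x = Φ (fs T a)
      rw [fs_apply, fs, Finsupp.linearCombination_apply, Finsupp.sum, map_sum]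
      refine sum_congr rfl fun t _ => ?_
      rw [hes, map_smul, smul_eq_mul]
  ext f
  exact congrFun hfun f

end Vale.Agent.P069.WT
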