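import Vale.Agent.P069.WT.Dual
import Vale.Agent.P069.WT.Refl
import Vale.Agent.P069.H778.Defs
import Mathlib.Analysis.Normed.Module.Bases
import Mathlib.Data.Nat.Nth
attribute [-instance] ProperSMul.toContinuousSMul IsTopologicalTorsor.toContinuousSMul IdemSemiring.toCanonicallyOrderedAdd IdemSemiring.toMulLeftMono IdemSemiring.toMulRightMono AddQuantale.instAddLeftMono AddQuantale.instAddRightMono Quantale.instMulLeftMono Quantale.instMulRightMono FiniteDimensional.rclike_to_real IsScalarTower.complexToReal FiniteDimensional.complexToReal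

/-!
# A monotone Schauder basis of the dual of the James-tree space
-/

open Filter Topology TopologicalSpace Finset
open scoped ENNReal

namespace Vale.Agent.P069.WT

open JT

noncomputable section

namespace Mb

/-- The codes of the nodes other than the root. -/
def cod (T : Set (List ℕ)) (n : ℕ) : Prop :=
  Denumerable.ofNat (List ℕ) n ∈ T ∧ Denumerable.ofNat (List ℕ) n ≠ []

/-- The nodes other than the root, in the order of their codes. -/
def nd (T : Set (List ℕ)) (i : ℕ) : List ℕ := Denumerable.ofNat (List ℕ) (Nat.nth (cod T) i)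

variable {T : Set (List ℕ)}

lemma cod_encode {t : List ℕ} (h : t ∈ T) (h0 : t ≠ []) : cod T (Encodable.encode t) := by
  rw [cod, Denumerable.ofNat_encode]
  exact ⟨h, h0⟩

lemma infinite_cod (hi : T.Infinite) : (Set.ofPred (cod T)).Infinite := by
  have h1 : (T \ {[]}).Infinite := hi.sdiff (Set.finite_singleton _)
  have h2 : (Encodable.encode '' (T \ {[]})).Infinite :=
    h1.image (Encodable.encode_injective.injOn)
  refine h2.mono ?_
  rintro _ ⟨t, ⟨ht, ht0⟩, rfl⟩
  exact cod_encode ht ht0

lemma nd_mem (hi : T.Infinite) (i : ℕ) : nd T i ∈ T :=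
  (Nat.nth_mem_of_infinite (infinite_cod hi) i).1

lemma nd_ne (hi : T.Infinite) (i : ℕ) : nd T i ≠ [] :=
  (Nat.nth_mem_of_infinite (infinite_cod hi) i).2

lemma encode_nd (i : ℕ) : Encodable.encode (nd T i) = Nat.nth (cod T) i :=
  Denumerable.encode_ofNat _

lemma nd_injective (hi : T.Infinite) : Function.Injective (nd T) := by
  intro i j h
  have h1 := congrArg Encodable.encode h
  rw [encode_nd, encode_nd] at h1
  exact (Nat.nth_strictMono (infinite_cod hi)).injective h1

lemma exists_nd (hi : T.Infinite) {t : List ℕ} (h : t ∈ T) (h0 : t ≠ []) : ∃ i, nd T i = t := by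
  have h1 : Encodable.encode t ∈ Set.range (Nat.nth (cod T)) := by
    rw [Nat.range_nth_of_infinite (infinite_cod hi)]
    exact cod_encode h h0
  obtain ⟨i, h1⟩ := h1
  refine ⟨i, Encodable.encode_injective ?_⟩
  rw [encode_nd, h1]

/-- The first `N` nodes and the root. -/
def DN (T : Set (List ℕ)) (N : ℕ) : Finset (List ℕ) := insert [] ((range N).image (nd T))

lemma nil_mem_DN (N : ℕ) : [] ∈ DN T N := mem_insert_self _ _

lemma DN_closed (hc : ∀ k t, k :: t ∈ T → t ∈ T) (hi : T.Infinite) (N : ℕ) :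
    ∀ k t, k :: t ∈ DN T N → t ∈ DN T N := by
  intro k t h
  rw [DN, mem_insert, mem_image] at h ⊢
  rcases h with h | ⟨i, hiN, h⟩
  · exact absurd h (List.cons_ne_nil k t)
  · by_cases h0 : t = []
    · exact Or.inl h0
    · right
      have h1 : k :: t ∈ T := h ▸ nd_mem hi i
      obtain ⟨j, hj⟩ := exists_nd hi (hc k t h1) h0
      refine ⟨j, ?_, hj⟩
      rw [mem_range] at hiN ⊢
      refine lt_trans ?_ hiN
      refine (Nat.nth_strictMono (infinite_cod hi)).lt_iff_lt.1 ?_
      rw [← encode_nd, ← encode_nd, hj, h, Encodable.encode_list_cons]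
      exact Nat.lt_succ_of_le (Nat.right_le_pair _ _)

/-- The coordinates. -/
def crd (T : Set (List ℕ)) (i : ℕ) : StrongDual ℝ (StrongDual ℝ (YT T)) :=
  NormedSpace.inclusionInDoubleDual ℝ (YT T) (toY T (ev (nd T i)))

lemma crd_apply (i : ℕ) (z : StrongDual ℝ (YT T)) : crd T i z = z (toY T (ev (nd T i))) := rfl

/-- The basis vectors. -/
def bas (T : Set (List ℕ)) (i : ℕ) : StrongDual ℝ (YT T) := es T (nd T i)

/-- The partial sum operators. -/
def PP (T : Set (List ℕ)) (N : ℕ) : StrongDual ℝ (YT T) →L[ℝ] StrongDual ℝ (YT T) :=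
  ∑ i ∈ range N, (crd T i).smulRight (bas T i)

lemma PP_apply (N : ℕ) (z : StrongDual ℝ (YT T)) :
    PP T N z = ∑ i ∈ range N, crd T i z • bas T i := by
  rw [PP, _root_.sum_apply]
  rfl

lemma bas_toY (hi : T.Infinite) (i : ℕ) (w : EE) : bas T i (toY T w) = w (nd T i) := by
  have h1 := nd_mem hi i
  have h2 := nd_ne hi i
  rw [bas]
  cases h : nd T i with
  | nil => exact absurd h h2
  | cons k t =>
    rw [h] at h1
    rw [es_toY_cons, pr_mem _ h1]

lemma PP_toY (hi : T.Infinite) (N : ℕ) (z : StrongDual ℝ (YT T)) (w : EE) :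
    PP T N z (toY T w) = z (toY T (pr (DN T N : Set (List ℕ)) w)) := by
  rw [toY_pr_finset, map_sum, DN, sum_insert, toY_ev_nil, smul_zero, map_zero, zero_add,
    sum_image fun i _ j _ h => nd_injective hi h, PP_apply, _root_.sum_apply]
  · refine sum_congr rfl fun i _ => ?_
    rw [map_smul, smul_apply, bas_toY hi, crd_apply, smul_eq_mul, smul_eq_mul, mul_comm]
  · rw [mem_image]
    rintro ⟨i, _, h⟩
    exact nd_ne hi i h

lemma norm_PP_apply_le (hc : ∀ k t, k :: t ∈ T → t ∈ T) (hi : T.Infinite) (N : ℕ)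
    (z : StrongDual ℝ (YT T)) : ‖PP T N z‖ ≤ ‖z‖ := by
  refine opNorm_le_of_dense (denseRange_toY T) _ (norm_nonneg _) fun w => ?_
  rw [PP_toY hi]
  refine (z.le_opNorm _).trans ?_
  exact mul_le_mul_of_nonneg_left
    (norm_toY_pr_le T (nil_mem_DN N) (DN_closed hc hi N) w) (norm_nonneg _)

lemma norm_PP_le (hc : ∀ k t, k :: t ∈ T → t ∈ T) (hi : T.Infinite) (N : ℕ) :
    ‖PP T N‖ ≤ 1 :=
  ContinuousLinearMap.opNorm_le_bound _ zero_le_one fun z => by
    rw [one_mul]
    exact norm_PP_apply_le hc hi N z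

lemma ortho (hi : T.Infinite) (i j : ℕ) : crd T i (bas T j) = if i = j then 1 else 0 := by
  rw [crd_apply, bas_toY hi]
  by_cases hij : i = j
  · subst hij
    rw [if_pos rfl, ev_self]
  · rw [if_neg hij, ev_ne fun h => hij (nd_injective hi h).symm]

lemma PP_bas (hi : T.Infinite) {N i : ℕ} (hN : i < N) : PP T N (bas T i) = bas T i := by
  rw [PP_apply, sum_eq_single i]
  · rw [ortho hi, if_pos rfl, one_smul]
  · intro j _ hj
    rw [ortho hi, if_neg hj, zero_smul]
  · intro h'
    exact absurd (mem_range.2 hN) h'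

/-- The vectors on which the partial sums converge. -/
def GG (T : Set (List ℕ)) : Submodule ℝ (StrongDual ℝ (YT T)) where
  carrier := {z | Tendsto (fun N => PP T N z) atTop (𝓝 z)}
  zero_mem' := by simp
  add_mem' := by
    intro x y hx hy
    simp only [Set.mem_ofPred_eq, map_add] at hx hy ⊢
    exact hx.add hy
  smul_mem' := by
    intro a x hx
    simp only [Set.mem_ofPred_eq, map_smul] at hx ⊢
    exact hx.const_smul a

lemma bas_mem (hi : T.Infinite) (i : ℕ) : bas T i ∈ GG T := by
  show Tendsto (fun N => PP T N (bas T i)) atTop (𝓝 (bas T i))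
  refine tendsto_const_nhds.congr' ?_
  filter_upwards [eventually_gt_atTop i] with N hN
  exact (PP_bas hi hN).symm

lemma es_mem (hi : T.Infinite) (t : List ℕ) : es T t ∈ GG T := by
  by_cases h : t ∈ T
  · by_cases h0 : t = []
    · rw [h0, es_nil]; exact zero_mem _
    · obtain ⟨i, rfl⟩ := exists_nd hi h h0
      exact bas_mem hi i
  · rw [es_eq_zero h]; exact zero_mem _

lemma fs_mem (hi : T.Infinite) (a : EE) : fs T a ∈ GG T := by
  rw [fs, Finsupp.linearCombination_apply, Finsupp.sum]
  exact sum_mem fun t _ => (GG T).smul_mem _ (es_mem hi t)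

lemma tendsto_PP (hc : ∀ k t, k :: t ∈ T → t ∈ T) (hi : T.Infinite) (h : DenseRange (fs T))
    (z : StrongDual ℝ (YT T)) : Tendsto (fun N => PP T N z) atTop (𝓝 z) := by
  rw [Metric.tendsto_atTop]
  intro ε hε
  obtain ⟨a, ha⟩ := h.exists_dist_lt z (show 0 < ε / 3 by positivity)
  have hy' : Tendsto (fun N => PP T N (fs T a)) atTop (𝓝 (fs T a)) := fs_mem hi a
  rw [Metric.tendsto_atTop] at hy'
  obtain ⟨N₀, hN₀⟩ := hy' (ε / 3) (by positivity)
  refine ⟨N₀, fun N hN => ?_⟩
  have h1 := hN₀ N hN
  have h2 : dist (PP T N z) (PP T N (fs T a)) ≤ dist z (fs T a) := by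
    rw [dist_eq_norm, dist_eq_norm, ← map_sub]
    exact norm_PP_apply_le hc hi N _
  calc dist (PP T N z) z ≤ dist (PP T N z) (PP T N (fs T a)) + dist (PP T N (fs T a)) (fs T a) +
        dist (fs T a) z := dist_triangle4 _ _ _ _
    _ < ε := by
        rw [dist_comm (fs T a) z]
        linarith

/-- The basis. -/
def zbasis (hc : ∀ k t, k :: t ∈ T → t ∈ T) (hi : T.Infinite) (h : DenseRange (fs T)) :
    SchauderBasis ℝ (StrongDual ℝ (YT T)) where
  basis := bas T
  coord := crd T
  ortho i j := by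
    by_cases hij : i = j
    · subst hij
      rw [ortho hi, if_pos rfl]
      simp
    · rw [ortho hi, if_neg hij]
      simp [hij]
  expansion z := by
    have h := tendsto_PP hc hi h z
    simp_rw [PP_apply] at h
    rw [HasSum, SummationFilter.conditional_filter_eq_map_range, tendsto_map'_iff]
    exact h

end Mb

/-- The coordinate functionals, in the order of the codes of the nodes, are a monotone Schauder
basis of the dual. -/
theorem hasMonotoneBasis {T : Set (List ℕ)} (hc : ∀ k t, k :: t ∈ T → t ∈ T) (hi : T.Infinite)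
    (h : DenseRange (fs T)) : H778.HasMonotoneBasis (StrongDual ℝ (YT T)) :=
  ⟨Mb.zbasis hc hi h, fun N => Mb.norm_PP_le hc hi N⟩

end

end Vale.Agent.P069.WT
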