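import Vale.Agent.P069.WT.Key
attribute [-instance] ProperSMul.toContinuousSMul IsTopologicalTorsor.toContinuousSMul IdemSemiring.toCanonicallyOrderedAdd IdemSemiring.toMulLeftMono IdemSemiring.toMulRightMono AddQuantale.instAddLeftMono AddQuantale.instAddRightMono Quantale.instMulLeftMono Quantale.instMulRightMono FiniteDimensional.rclike_to_real IsScalarTower.complexToReal FiniteDimensional.complexToReal

/-!
# Two-sided estimates in the dual of the James-tree space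
-/

open Filter Topology TopologicalSpace Finset
open scoped ENNReal

namespace Vale.Agent.P069.WT

open JT

section general

variable {E Y : Type*} [AddCommGroup E] [Module ℝ E] [NormedAddCommGroup Y] [NormedSpace ℝ Y]

lemma opNorm_le_of_dense {T : E →ₗ[ℝ] Y} (hT : DenseRange T) (φ : StrongDual ℝ Y) {C : ℝ}
    (hC : 0 ≤ C) (h : ∀ w, ‖φ (T w)‖ ≤ C * ‖T w‖) : ‖φ‖ ≤ C := by
  refine ContinuousLinearMap.opNorm_le_bound _ hC fun y => ?_
  refine hT.induction_on (p := fun y => ‖φ y‖ ≤ C * ‖y‖) y ?_ h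
  exact isClosed_le (by fun_prop) (by fun_prop)

lemma exists_near_norming' {T : E →ₗ[ℝ] Y} (hT : DenseRange T) (φ : StrongDual ℝ Y) {θ : ℝ}
    (h1 : θ < 1) : ∃ w : E, ‖T w‖ ≤ 1 ∧ θ * ‖φ‖ ≤ φ (T w) := by
  rcases eq_or_lt_of_le (norm_nonneg φ) with h | h
  · exact ⟨0, by simp, by rw [← h]; simp⟩
  · obtain ⟨z, hz1, hz2⟩ := ContinuousLinearMap.exists_lt_apply_of_lt_opNorm φ
      (show θ * ‖φ‖ < ‖φ‖ by nlinarith)
    have hU : IsOpen {z : Y | ‖z‖ < 1 ∧ θ * ‖φ‖ < ‖φ z‖} := by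
      have a1 : IsOpen {z : Y | ‖z‖ < 1} := isOpen_lt (by fun_prop) (by fun_prop)
      have a2 : IsOpen {z : Y | θ * ‖φ‖ < ‖φ z‖} := isOpen_lt (by fun_prop) (by fun_prop)
      exact a1.inter a2
    obtain ⟨w, hw1, hw2⟩ := hT.exists_mem_open hU ⟨z, hz1, hz2⟩
    rcases le_total 0 (φ (T w)) with h2 | h2
    · rw [Real.norm_of_nonneg h2] at hw2
      exact ⟨w, hw1.le, hw2.le⟩
    · rw [Real.norm_of_nonpos h2] at hw2
      exact ⟨-w, by rw [map_neg, norm_neg]; exact hw1.le, by rw [map_neg, map_neg]; exact hw2.le⟩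

lemma step {T : E →ₗ[ℝ] Y} (hT : DenseRange T) {P : E →ₗ[ℝ] E}
    (hP : ∀ w, ‖T (P w)‖ ≤ ‖T w‖) (u y : StrongDual ℝ Y)
    (hu : ∀ w, u (T (P w)) = u (T w)) (hy : ∀ w, y (T (P w)) = 0) : ‖u‖ ≤ ‖u + y‖ := by
  refine opNorm_le_of_dense hT _ (norm_nonneg _) fun w => ?_
  have h1 : u (T w) = (u + y) (T (P w)) := by
    rw [add_apply, hu, hy, add_zero]
  rw [h1]
  refine ((u + y).le_opNorm _).trans ?_
  exact mul_le_mul_of_nonneg_left (hP w) (norm_nonneg _)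

theorem est_ineq' {T : E →ₗ[ℝ] Y} (hT : DenseRange T) {P : E →ₗ[ℝ] E}
    (hP2 : ∀ w, ‖T (P w)‖ ^ 2 + ‖T (w - P w)‖ ^ 2 ≤ ‖T w‖ ^ 2)
    (hkey : ∀ f₀ g : E, ∀ a c : ℝ, 0 ≤ a → 0 ≤ c →
      ∃ h₁ h₂ : E, T (g - P g) = T (h₁ - h₂) ∧ P h₁ = 0 ∧ P h₂ = 0 ∧
      ‖T (a • P f₀ + c • h₁)‖ ^ 2 ≤ a ^ 2 * ‖T (P f₀)‖ ^ 2 + 3 * c ^ 2 * ‖T g‖ ^ 2 ∧
      ‖T (a • P f₀ + c • h₂)‖ ^ 2 ≤ a ^ 2 * ‖T (P f₀)‖ ^ 2 + 3 * c ^ 2 * ‖T g‖ ^ 2)
    (u y : StrongDual ℝ Y) (hu : ∀ w, u (T (P w)) = u (T w)) (hy : ∀ w, y (T (P w)) = 0) :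
    Est (1 / 12) u y := by
  have hP : ∀ w, ‖T (P w)‖ ≤ ‖T w‖ := fun w => by
    refine le_of_sq_le_sq ?_ (norm_nonneg _)
    have h1 := hP2 w
    have h2 := sq_nonneg ‖T (w - P w)‖
    linarith
  refine ⟨?_, ?_⟩
  · obtain ⟨Q, hQ⟩ : ∃ Q : ℝ, Q = ‖u‖ ^ 2 + ‖y‖ ^ 2 / 12 := ⟨_, rfl⟩
    have hplus : ‖u‖ ≤ ‖u + y‖ := step hT hP u y hu hy
    have hminus : ‖u‖ ≤ ‖u - y‖ := by
      rw [sub_eq_add_neg]
      exact step hT hP u (-y) hu (fun w => by rw [neg_apply, hy, neg_zero])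
    have hplus2 : ‖u‖ ^ 2 ≤ ‖u + y‖ ^ 2 := pow_le_pow_left₀ (norm_nonneg _) hplus 2
    have hminus2 : ‖u‖ ^ 2 ≤ ‖u - y‖ ^ 2 := pow_le_pow_left₀ (norm_nonneg _) hminus 2
    have main : ∀ θ : ℝ, 0 ≤ θ → θ < 1 → θ ^ 2 * Q + ‖u‖ ^ 2 ≤ ‖u + y‖ ^ 2 + ‖u - y‖ ^ 2 := by
      intro θ hθ0 hθ1
      obtain ⟨f₀, hf'1, hf'2⟩ := exists_near_norming' hT u hθ1
      obtain ⟨g, hg'1, hg'2⟩ := exists_near_norming' hT y hθ1
      have hf1 : ‖T (P f₀)‖ ^ 2 ≤ 1 := pow_le_one₀ (norm_nonneg _) ((hP f₀).trans hf'1)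
      have hg1 : ‖T g‖ ^ 2 ≤ 1 := pow_le_one₀ (norm_nonneg _) hg'1
      have hf2 : θ * ‖u‖ ≤ u (T (P f₀)) := by rw [hu]; exact hf'2
      obtain ⟨h₁, h₂, hdec, hr1, hr2, hn1, hn2⟩ := hkey f₀ g ‖u‖ (‖y‖ / 6) (norm_nonneg _)
        (by positivity)
      have hu1 : u (T h₁) = 0 := by rw [← hu, hr1, map_zero, map_zero]
      have hu2 : u (T h₂) = 0 := by rw [← hu, hr2, map_zero, map_zero]
      have hy12 : y (T h₁) - y (T h₂) = y (T g) := by
        rw [← map_sub, ← map_sub, ← hdec, map_sub, map_sub, hy, sub_zero]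
      rcases le_or_gt (θ * ‖y‖ / 2) (y (T h₁)) with hcase | hcase
      · have := twoAMUC_case3 u y hQ hθ0 hf1 hg1 hf2 (hy f₀) hu1 hcase hn1
        linarith
      · have h3 : θ * ‖-y‖ / 2 ≤ (-y) (T h₂) := by
          rw [norm_neg, neg_apply]; linarith
        have := twoAMUC_case3 u (-y) (Q := Q) (by rw [norm_neg]; exact hQ) hθ0 hf1 hg1 hf2
          (by rw [neg_apply, hy, neg_zero]) hu2 h3 (by rw [norm_neg]; exact hn2)
        rw [← sub_eq_add_neg] at this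
        linarith
    have hlim : Tendsto (fun θ : ℝ => θ ^ 2 * Q + ‖u‖ ^ 2) (𝓝[<] 1)
        (𝓝 (1 ^ 2 * Q + ‖u‖ ^ 2)) := by
      have : Continuous fun θ : ℝ => θ ^ 2 * Q + ‖u‖ ^ 2 := by fun_prop
      exact (this.tendsto 1).mono_left nhdsWithin_le_nhds
    have hfin : 1 ^ 2 * Q + ‖u‖ ^ 2 ≤ ‖u + y‖ ^ 2 + ‖u - y‖ ^ 2 := by
      refine le_of_tendsto hlim ?_
      filter_upwards [Ioo_mem_nhdsLT (show (0 : ℝ) < 1 by norm_num)] with θ hθ
      exact main θ hθ.1.le hθ.2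
    rw [hQ] at hfin
    linarith
  · have h1 : ‖u + y‖ ≤ Real.sqrt (‖u‖ ^ 2 + ‖y‖ ^ 2) := by
      refine opNorm_le_of_dense hT _ (Real.sqrt_nonneg _) fun w => ?_
      have h2 : (u + y) (T w) = u (T (P w)) + y (T (w - P w)) := by
        rw [add_apply, hu, map_sub, map_sub, hy, sub_zero]
      rw [h2]
      calc ‖u (T (P w)) + y (T (w - P w))‖ ≤ ‖u (T (P w))‖ + ‖y (T (w - P w))‖ :=
            norm_add_le _ _
        _ ≤ ‖u‖ * ‖T (P w)‖ + ‖y‖ * ‖T (w - P w)‖ :=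
            add_le_add (u.le_opNorm _) (y.le_opNorm _)
        _ ≤ Real.sqrt (‖u‖ ^ 2 + ‖y‖ ^ 2) * Real.sqrt (‖T (P w)‖ ^ 2 + ‖T (w - P w)‖ ^ 2) := by
            rw [← Real.sqrt_mul (by positivity)]
            refine Real.le_sqrt_of_sq_le ?_
            nlinarith [sq_nonneg (‖u‖ * ‖T (w - P w)‖ - ‖y‖ * ‖T (P w)‖)]
        _ ≤ Real.sqrt (‖u‖ ^ 2 + ‖y‖ ^ 2) * ‖T w‖ := by
            gcongr
            rw [Real.sqrt_le_left (norm_nonneg _)]
            exact hP2 w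
    calc ‖u + y‖ ^ 2 ≤ Real.sqrt (‖u‖ ^ 2 + ‖y‖ ^ 2) ^ 2 := by gcongr
      _ = _ := Real.sq_sqrt (by positivity)

end general

theorem twoEst_of_support (T : Set (List ℕ)) {D : Finset (List ℕ)} (h0 : [] ∈ D)
    (hD : ∀ k t, k :: t ∈ D → t ∈ D) (u : StrongDual ℝ (YT T))
    (hu : ∀ w : EE, u (toY T (pr (D : Set (List ℕ)) w)) = u (toY T w)) : TwoEst (1 / 12) u := by
  let g : StrongDual ℝ (YT T) →ₗ[ℝ] (D → ℝ) := LinearMap.pi fun t : D =>
    (NormedSpace.inclusionInDoubleDual ℝ (YT T) (toY T (ev t.1))).toLinearMap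
  have hker : ∀ y : StrongDual ℝ (YT T), y ∈ LinearMap.ker g ↔ ∀ t : D, y (toY T (ev t.1)) = 0 := by
    intro y
    rw [LinearMap.mem_ker]
    constructor
    · intro h t
      have h1 : g y t = 0 := by rw [h]; rfl
      exact h1
    · intro h
      ext t
      exact h t
  refine ⟨LinearMap.ker g, ⟨?_, finiteDimensional_quotient_of_ker_le g _ le_rfl⟩, ?_⟩
  · have : (LinearMap.ker g : Set (StrongDual ℝ (YT T))) = ⋂ t : D,
        (NormedSpace.inclusionInDoubleDual ℝ (YT T) (toY T (ev t.1))) ⁻¹' {0} := by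
      ext y
      simp only [SetLike.mem_coe, Set.mem_iInter, Set.mem_preimage, Set.mem_singleton_iff]
      exact hker y
    rw [this]
    exact isClosed_iInter fun t => isClosed_singleton.preimage
      (NormedSpace.inclusionInDoubleDual ℝ (YT T) (toY T (ev t.1))).continuous
  · intro y hy
    rw [hker] at hy
    refine est_ineq' (denseRange_toY T) (P := pr (D : Set (List ℕ)))
      (toY_lower_two T h0 hD) (fun f₀ g a c ha hc => key_dec_T T h0 hD f₀ g ha hc) u y hu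
      fun w => ?_
    rw [toY_pr_finset, map_sum]
    refine Finset.sum_eq_zero fun t ht => ?_
    rw [map_smul, hy ⟨t, ht⟩, smul_zero]

theorem twoEst_fs (T : Set (List ℕ)) (a : EE) : TwoEst (1 / 12) (fs T a) := by
  obtain ⟨D, hs, h0, hD⟩ := exists_closure a.support
  refine twoEst_of_support T h0 hD _ fun w => ?_
  rw [fs_apply, fs_apply]
  refine sum_congr rfl fun t ht => ?_
  cases t with
  | nil => rw [es_nil]; rfl
  | cons k t =>
    rw [es_toY_cons, es_toY_cons, pr_comm, pr_mem _ (mem_coe.2 (hs ht))]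

theorem dense_twoEst {T : Set (List ℕ)} (h : DenseRange (fs T)) :
    Dense {u : StrongDual ℝ (YT T) | TwoEst (1 / 12) u} :=
  h.mono (by rintro _ ⟨a, rfl⟩; exact twoEst_fs T a)

theorem separableSpace_dual {T : Set (List ℕ)} (h : DenseRange (fs T)) :
    SeparableSpace (StrongDual ℝ (YT T)) := by
  rw [← isSeparable_univ_iff, ← h.closure_range]
  refine IsSeparable.closure ?_
  have h1 : Set.range (fs T) = (Submodule.span ℝ (Set.range (es T)) : Set _) := by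
    rw [← Finsupp.range_linearCombination]; rfl
  rw [h1]
  exact (Set.countable_range _).isSeparable.span

/-! ### Trees in the dual -/

lemma one_le_norm_cc {T : Set (List ℕ)} {k : ℕ} {t : List ℕ} (h : k :: t ∈ T) :
    1 ≤ ‖cc T (k :: t) - cc T t‖ := by
  have h1 := (cc T (k :: t) - cc T t).le_opNorm (toY T (ev (k :: t)))
  rw [← es_cons, es_toY_cons, pr_mem _ h, ev_self, norm_one] at h1
  have h2 := norm_toY_ev_le T (k :: t)
  have h3 : ‖es T (k :: t)‖ * ‖toY T (ev (k :: t))‖ ≤ ‖es T (k :: t)‖ * 1 := by gcongr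
  rw [← es_cons]
  linarith

lemma tendsto_es (T : Set (List ℕ)) (t : List ℕ) (y : YT T) :
    Tendsto (fun k : ℕ => es T (k :: t) y) atTop (𝓝 0) := by
  rw [Metric.tendsto_atTop]
  intro ε hε
  obtain ⟨w, hw⟩ := (denseRange_toY T).exists_dist_lt y (show 0 < ε / 4 by positivity)
  have hfin : (Set.Finite {k : ℕ | k :: t ∈ w.support}) :=
    (w.support.finite_toSet).preimage (Set.injOn_of_injective fun a b h => (List.cons.inj h).1)
  obtain ⟨N, hN⟩ := hfin.bddAbove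
  refine ⟨N + 1, fun k hk => ?_⟩
  have h1 : w (k :: t) = 0 := by
    by_contra h
    have := hN (show k ∈ {k : ℕ | k :: t ∈ w.support} from Finsupp.mem_support_iff.2 h)
    omega
  have h2 : pr T w (k :: t) = 0 := by
    by_cases h : k :: t ∈ T
    · rw [pr_mem _ h, h1]
    · rw [pr_not_mem _ h]
  have h3 : es T (k :: t) y = es T (k :: t) (y - toY T w) := by
    rw [map_sub, es_toY_cons, h2, sub_zero]
  rw [dist_zero_right, h3]
  refine lt_of_le_of_lt ((es T (k :: t)).le_opNorm _) ?_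
  rw [dist_eq_norm] at hw
  have h4 := norm_es_le T (k :: t)
  have h5 := norm_nonneg (y - toY T w)
  nlinarith

lemma tendsto_cc {T : Set (List ℕ)} (h : IsReflexive (YT T)) (t : List ℕ)
    (f : StrongDual ℝ (StrongDual ℝ (YT T))) :
    Tendsto (fun k : ℕ => f (cc T (k :: t) - cc T t)) atTop (𝓝 0) := by
  obtain ⟨y, rfl⟩ := h f
  exact tendsto_es T t y

end Vale.Agent.P069.WT
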