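import Vale.Agent.P069.WT.Dual
import Vale.Agent.P069.H778.Tree
attribute [-instance] ProperSMul.toContinuousSMul IsTopologicalTorsor.toContinuousSMul IdemSemiring.toCanonicallyOrderedAdd IdemSemiring.toMulLeftMono IdemSemiring.toMulRightMono AddQuantale.instAddLeftMono AddQuantale.instAddRightMono Quantale.instMulLeftMono Quantale.instMulRightMono FiniteDimensional.rclike_to_real IsScalarTower.complexToReal FiniteDimensional.complexToReal

/-!
# Embedding of the countably branching trees of finite height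
-/

open Filter Topology TopologicalSpace Finset
open scoped ENNReal

namespace Vale.Agent.P069.WT

open JT H778

lemma cu_ev_of_not_suffix {p u : List ℕ} (h : ¬ p <:+ u) : cu (ev p) u = 0 := by
  induction u with
  | nil => rfl
  | cons k u ih =>
    have h1 : k :: u ≠ p := fun e => h (by rw [← e])
    rw [cu_cons, ih fun h' => h (h'.trans (List.suffix_cons k u)), ev_ne h1, add_zero]

lemma cu_ev_append (c : ℕ) (r l : List ℕ) : cu (ev (c :: r)) (l ++ c :: r) = 1 := by
  induction l with
  | nil =>
    rw [List.nil_append, cu_cons, cu_ev_of_not_suffix, ev_self, zero_add]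
    intro h'
    have := h'.length_le
    simp at this
  | cons k l ih =>
    have h1 : k :: (l ++ c :: r) ≠ c :: r := fun e => by
      have := congrArg List.length e
      simp at this
      omega
    rw [List.cons_append, cu_cons, ih, ev_ne h1, add_zero]

lemma suffix_concat {p u : List ℕ} {m : ℕ} : p ++ [m] <:+ u ++ [m] ↔ p <:+ u := by
  constructor
  · rintro ⟨l, hl⟩
    rw [← List.append_assoc] at hl
    exact ⟨l, List.append_cancel_right hl⟩
  · rintro ⟨l, rfl⟩
    exact ⟨l, by rw [List.append_assoc]⟩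

lemma pr_ev {T : Set (List ℕ)} {t : List ℕ} (h : t ∈ T) : pr T (ev t) = ev t :=
  pr_eq_self fun _ hs => ev_ne fun h' => hs (h' ▸ h)

/-- The embedding of the tree. -/
noncomputable def FT (T : Set (List ℕ)) (m : ℕ) : List ℕ → StrongDual ℝ (YT T)
  | [] => 0
  | k :: t => FT T m t + cc T (k :: (t ++ [m]))

lemma FT_cons (T : Set (List ℕ)) (m k : ℕ) (t : List ℕ) :
    FT T m (k :: t) = FT T m t + cc T (k :: (t ++ [m])) := rfl

variable {T : Set (List ℕ)} {m : ℕ}

lemma FT_apply_of_not_suffix {p u : List ℕ} (h : ¬ p <:+ u) :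
    FT T m u (toY T (ev (p ++ [m]))) = 0 := by
  by_cases hp : p ++ [m] ∈ T
  · induction u with
    | nil => rfl
    | cons k u ih =>
      rw [FT_cons, add_apply, ih fun h' => h (h'.trans (List.suffix_cons k u)), cc_toY, pr_ev hp,
        zero_add]
      refine cu_ev_of_not_suffix ?_
      rw [← List.cons_append, suffix_concat]
      exact h
  · rw [toY_ev_of_not_mem hp, map_zero]

lemma FT_apply_append (c : ℕ) (r l : List ℕ) (h : (c :: r) ++ [m] ∈ T) :
    FT T m (l ++ c :: r) (toY T (ev ((c :: r) ++ [m]))) = l.length + 1 := by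
  induction l with
  | nil =>
    rw [List.nil_append, FT_cons, add_apply, FT_apply_of_not_suffix, cc_toY, pr_ev h]
    · have := cu_ev_append c (r ++ [m]) []
      rw [List.nil_append] at this
      rw [List.cons_append, this]; simp
    · intro h'
      have := h'.length_le
      simp at this
  | cons k l ih =>
    rw [List.cons_append, FT_cons, add_apply, ih, cc_toY, pr_ev h]
    have h2 := cu_ev_append c (r ++ [m]) (k :: l)
    have h3 : k :: (l ++ c :: r ++ [m]) = (k :: l) ++ c :: (r ++ [m]) := by simp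
    have h4 : (c :: r) ++ [m] = c :: (r ++ [m]) := rfl
    rw [h3, h4, h2]
    simp

lemma norm_toY_ev_sub_le {p q : List ℕ} (h1 : ¬ p <:+ q) (h2 : ¬ q <:+ p) :
    ‖toY T (ev (p ++ [m]) - ev (q ++ [m]))‖ ≤ Real.sqrt 2 := by
  refine Real.le_sqrt_of_sq_le ?_
  rw [norm_toY, sub_eq_add_neg, map_add]
  refine (upper_two fun s t hs ht => ?_).trans ?_
  · have e1 : s = p ++ [m] := by
      by_contra hne
      apply hs
      by_cases hsT : s ∈ T
      · rw [pr_mem _ hsT, ev_ne hne]
      · rw [pr_not_mem _ hsT]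
    have e2 : t = q ++ [m] := by
      by_contra hne
      apply ht
      by_cases htT : t ∈ T
      · rw [pr_mem _ htT, Finsupp.neg_apply, ev_ne hne, neg_zero]
      · rw [pr_not_mem _ htT]
    rw [e1, e2, suffix_concat, suffix_concat]
    exact ⟨h1, h2⟩
  · have a1 := norm_toY_ev_le T (p ++ [m])
    have a2 := norm_toY_ev_le T (q ++ [m])
    rw [norm_toY] at a1 a2
    rw [map_neg, map_neg, norm_neg]
    have b1 := pow_le_one₀ (n := 2) (norm_nonneg _) a1
    have b2 := pow_le_one₀ (n := 2) (norm_nonneg _) a2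
    linarith

lemma le_of_test' (φ : StrongDual ℝ (YT T)) {v : YT T} (hv : ‖v‖ ≤ Real.sqrt 2) {a : ℝ}
    (ha : φ v = a) : a ≤ Real.sqrt 2 * ‖φ‖ := by
  rw [← ha]
  calc φ v ≤ ‖φ v‖ := le_abs_self _
    _ ≤ ‖φ‖ * ‖v‖ := φ.le_opNorm v
    _ ≤ ‖φ‖ * Real.sqrt 2 := by gcongr
    _ = _ := mul_comm _ _

lemma FT_lower {n : ℕ} (hT : ∀ t : List ℕ, t.length ≤ n → t ++ [m] ∈ T) (r s' t' : List ℕ)
    (hs : (s' ++ r).length ≤ n)
    (ht : (t' ++ r).length ≤ n) (h : ∀ c s'' t'', s' = s'' ++ [c] → t' ≠ t'' ++ [c]) :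
    (s'.length + t'.length : ℝ) ≤ Real.sqrt 2 * ‖FT T m (s' ++ r) - FT T m (t' ++ r)‖ := by
  have hone : (1 : ℝ) ≤ Real.sqrt 2 := by
    rw [Real.one_le_sqrt]; norm_num
  have hcnt : ∀ (c : ℕ) (l : List ℕ), (l ++ c :: r).length ≤ n → (c :: r) ++ [m] ∈ T := by
    intro c l h
    refine hT _ ?_
    rw [List.length_append] at h
    omega
  have hsuf : ∀ (c : ℕ) (l : List ℕ), c :: r <:+ l ++ r → ∃ l', l = l' ++ [c] := by
    rintro c l ⟨l', hl'⟩
    refine ⟨l', ?_⟩
    have : (l' ++ [c]) ++ r = l ++ r := by simpa using hl'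
    exact (List.append_cancel_right this).symm
  have happ : ∀ (c : ℕ) (l : List ℕ), (l ++ [c]) ++ r = l ++ c :: r := fun c l => by simp
  rcases List.eq_nil_or_concat' s' with hs' | ⟨s'', c, hs'⟩
  · subst hs'
    rcases List.eq_nil_or_concat' t' with ht' | ⟨t'', d, ht'⟩
    · subst ht'
      rw [List.length_nil, Nat.cast_zero, add_zero]
      positivity
    · subst ht'
      rw [happ] at ht ⊢
      rw [norm_sub_rev]
      refine le_of_test' _ ((norm_toY_ev_le T ((d :: r) ++ [m])).trans hone) ?_
      rw [sub_apply, FT_apply_append d r t'' (hcnt d t'' ht), FT_apply_of_not_suffix]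
      · simp
      · intro h'
        have := h'.length_le
        simp at this
  · rcases List.eq_nil_or_concat' t' with ht' | ⟨t'', d, ht'⟩
    · subst ht'
      subst hs'
      rw [happ] at hs ⊢
      refine le_of_test' _ ((norm_toY_ev_le T ((c :: r) ++ [m])).trans hone) ?_
      rw [sub_apply, FT_apply_append c r s'' (hcnt c s'' hs), FT_apply_of_not_suffix]
      · simp
      · intro h'
        have := h'.length_le
        simp at this
    · have hcd : c ≠ d := by
        rintro rfl
        exact h c s'' t'' hs' ht'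
      have n1 : ¬ d :: r <:+ s' ++ r := fun h' => by
        obtain ⟨l', hl'⟩ := hsuf d s' h'
        rw [hs'] at hl'
        have := List.append_inj_right' hl' rfl
        exact hcd (by simpa using this)
      have n2 : ¬ c :: r <:+ t' ++ r := fun h' => by
        obtain ⟨l', hl'⟩ := hsuf c t' h'
        rw [ht'] at hl'
        have := List.append_inj_right' hl' rfl
        exact hcd (by simpa using this.symm)
      have e1 := FT_apply_of_not_suffix (T := T) (m := m) n1
      have e2 := FT_apply_of_not_suffix (T := T) (m := m) n2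
      have i1 : ¬ c :: r <:+ d :: r := fun h' => by
        have h3 := h'.eq_of_length (by simp)
        exact hcd (List.cons.inj h3).1
      have i2 : ¬ d :: r <:+ c :: r := fun h' => by
        have h3 := h'.eq_of_length (by simp)
        exact hcd (List.cons.inj h3).1.symm
      subst hs'
      subst ht'
      rw [happ] at hs ht e1 e2 ⊢
      rw [happ]
      refine le_of_test' _ (norm_toY_ev_sub_le (T := T) (m := m) i1 i2) ?_
      rw [map_sub, map_sub, sub_apply, sub_apply, FT_apply_append c r s'' (hcnt c s'' hs), e1, e2,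
        FT_apply_append d r t'' (hcnt d t'' ht)]
      simp only [List.length_append, List.length_singleton]
      push_cast
      ring

theorem embeds_tree {T : Set (List ℕ)} (m n : ℕ)
    (hT : ∀ t : List ℕ, t.length ≤ n → t ++ [m] ∈ T) :
    EmbedsWith (tree n) (StrongDual ℝ (YT T)) (Real.sqrt 2) := by
  have h3 : 0 < Real.sqrt 2 := Real.sqrt_pos.2 (by norm_num)
  have hstep : ∀ (i : ℕ) (t : List ℕ), ‖FT T m (i :: t) - FT T m t‖ ≤ 1 := by
    intro i t
    rw [FT_cons, add_sub_cancel_left]
    exact norm_cc_le _ _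
  refine ⟨fun t => FT T m t.1, (Real.sqrt 2)⁻¹, inv_pos.2 h3, fun s t => ⟨?_, ?_⟩⟩
  · obtain ⟨s, hs⟩ := s
    obtain ⟨t, ht⟩ := t
    obtain ⟨r, s', t', rfl, rfl, h⟩ := exists_lcs s t
    have h1 := FT_lower hT r s' t' hs ht h
    have h2 : ((tree n).E.dist ⟨s' ++ r, hs⟩ ⟨t' ++ r, ht⟩ : ℝ) ≤ s'.length + t'.length := by
      exact_mod_cast tree_dist_le s' t' r hs ht
    rw [inv_mul_le_iff₀ h3]
    exact h2.trans h1
  · rw [← mul_assoc, mul_inv_cancel₀ h3.ne', one_mul]
    obtain ⟨p, hp⟩ := (preconnected_tree n s t).exists_walk_length_eq_dist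
    rw [← hp]
    exact walk_upper (FT T m) hstep p

end Vale.Agent.P069.WT
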