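import Vale.Agent.P069.Defs
import Mathlib.Analysis.Normed.Module.WeakDual
import Mathlib.Analysis.Normed.Module.DoubleDual
import Mathlib.SetTheory.Ordinal.Family
import Mathlib.Topology.Baire.Lemmas
import Mathlib.Topology.Baire.LocallyCompactRegular
import Mathlib.Data.Nat.Pairing

/-!
For every separable reflexive Banach space and every `δ > 0` there is a well-founded tree of
finite sequences of natural numbers such that no family of points of the unit ball, indexed by the
tree, has its nodes as weak limits of `δ`-separated children.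
-/

namespace Vale.Agent.P069.WT

open Filter Topology Set

section Abstract

variable {Y E : Type} [TopologicalSpace Y] [PseudoMetricSpace E] (φ : Y → E) (δ : ℝ) (K : Set Y)

/-- The derivation: remove the open sets of diameter less than `δ`. -/
def der (A : Set Y) : Set Y :=
  A \ ⋃₀ {U | IsOpen U ∧ ∀ u ∈ U ∩ A, ∀ v ∈ U ∩ A, dist (φ u) (φ v) < δ}

theorem isClosed_der {A : Set Y} (hA : IsClosed A) : IsClosed (der φ δ A) :=
  hA.sdiff (isOpen_sUnion fun _ hU => hU.1)

/-- The iterated derivation. -/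
noncomputable def it (a : Ordinal.{0}) : Set Y := K ∩ ⋂ b : Iio a, der φ δ (it b.1)
termination_by a
decreasing_by exact b.2

theorem it_eq (a : Ordinal.{0}) : it φ δ K a = K ∩ ⋂ b : Iio a, der φ δ (it φ δ K b.1) := by
  rw [it]

theorem it_subset (a : Ordinal.{0}) : it φ δ K a ⊆ K := by
  rw [it_eq]; exact inter_subset_left

variable {K} in
theorem isClosed_it (hK : IsClosed K) (a : Ordinal.{0}) : IsClosed (it φ δ K a) := by
  induction a using WellFoundedLT.induction with
  | _ a ih =>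
    rw [it_eq]
    exact hK.inter (isClosed_iInter fun b => isClosed_der φ δ (ih b.1 b.2))

theorem it_subset_der {a b : Ordinal.{0}} (h : a < b) : it φ δ K b ⊆ der φ δ (it φ δ K a) := by
  rw [it_eq φ δ K b]
  intro y hy
  exact mem_iInter.1 hy.2 ⟨a, h⟩

variable {φ δ K}

theorem exists_notMem_der [T2Space Y] [TopologicalSpace.SeparableSpace E] (hK : IsCompact K)
    (hc : ∀ (c : E) (r : ℝ), IsClosed (φ ⁻¹' Metric.closedBall c r)) (hδ : 0 < δ)
    {A : Set Y} (hA : IsClosed A) (hAK : A ⊆ K) (hne : A.Nonempty) : ∃ y ∈ A, y ∉ der φ δ A := by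
  have : CompactSpace A := isCompact_iff_compactSpace.1 (hK.of_isClosed_subset hA hAK)
  have : Nonempty A := hne.to_subtype
  have : Nonempty E := ⟨φ hne.some⟩
  let F : ℕ → Set A := fun n =>
    {y | φ y.1 ∈ Metric.closedBall (TopologicalSpace.denseSeq E n) (δ / 3)}
  have hF : ∀ n, IsClosed (F n) := fun n => (hc _ _).preimage continuous_subtype_val
  have hU : ⋃ n, F n = univ := by
    rw [eq_univ_iff_forall]
    intro y
    obtain ⟨n, hn⟩ := (TopologicalSpace.denseRange_denseSeq E).exists_dist_lt (φ y.1)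
      (show 0 < δ / 3 by positivity)
    exact mem_iUnion.2 ⟨n, Metric.mem_closedBall.2 hn.le⟩
  obtain ⟨n, y, hy⟩ := nonempty_interior_of_iUnion_of_closed hF hU
  obtain ⟨U, hUo, hUe⟩ := isOpen_induced_iff.1 (isOpen_interior (s := F n))
  have hyU : y.1 ∈ U := by
    have : y ∈ Subtype.val ⁻¹' U := by rw [hUe]; exact hy
    exact this
  refine ⟨y.1, y.2, fun hder => hder.2 ⟨U, ⟨hUo, ?_⟩, hyU⟩⟩
  have key : ∀ u ∈ U ∩ A, dist (φ u) (TopologicalSpace.denseSeq E n) ≤ δ / 3 := by
    intro u hu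
    have h1 : (⟨u, hu.2⟩ : A) ∈ Subtype.val ⁻¹' U := hu.1
    rw [hUe] at h1
    have h2 : (⟨u, hu.2⟩ : A) ∈ F n := interior_subset (s := F n) h1
    exact Metric.mem_closedBall.1 h2
  intro u hu v hv
  have h1 := key u hu
  have h2 := key v hv
  have h3 := dist_triangle_right (φ u) (φ v) (TopologicalSpace.denseSeq E n)
  linarith

/-- Countably many sets, open in the finer topology. -/
noncomputable def V [TopologicalSpace.SeparableSpace E] [Nonempty E] (φ : Y → E) (k : ℕ) : Set Y :=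
  φ ⁻¹' Metric.ball (TopologicalSpace.denseSeq E k.unpair.1) (1 / ((k.unpair.2 : ℝ) + 1))

theorem exists_V [TopologicalSpace.SeparableSpace E] [Nonempty E]
    (hφ : ∀ U : Set Y, IsOpen U → ∀ y ∈ U, ∃ ε > 0, ∀ y', dist (φ y') (φ y) < ε → y' ∈ U)
    {U : Set Y} (hU : IsOpen U) {y : Y} (hy : y ∈ U) : ∃ k, y ∈ V φ k ∧ V φ k ⊆ U := by
  obtain ⟨ε, hε, h⟩ := hφ U hU y hy
  obtain ⟨m, hm⟩ := exists_nat_one_div_lt (show 0 < ε / 2 by positivity)
  have hm0 : 0 < 1 / ((m : ℝ) + 1) := by positivity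
  obtain ⟨n, hn⟩ := (TopologicalSpace.denseRange_denseSeq E).exists_dist_lt (φ y) hm0
  refine ⟨Nat.pair n m, ?_, ?_⟩
  · unfold V
    rw [Nat.unpair_pair]
    exact Metric.mem_ball.2 hn
  · intro y' hy'
    unfold V at hy'
    rw [Nat.unpair_pair] at hy'
    have h1 : dist (φ y') (TopologicalSpace.denseSeq E n) < 1 / ((m : ℝ) + 1) :=
      Metric.mem_ball.1 hy'
    apply h
    have h3 := dist_triangle_right (φ y') (φ y) (TopologicalSpace.denseSeq E n)
    linarith

open Classical in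
/-- The labels of the nodes. -/
noncomputable def lab (j : Ordinal.{0} → ℕ) (a0 : Ordinal.{0}) : List ℕ → Ordinal.{0}
  | [] => a0
  | k :: t => if h : ∃ i, i < lab j a0 t ∧ j i = k.unpair.2 then h.choose else 0

/-- The nodes. -/
def inT (j : Ordinal.{0} → ℕ) (a0 : Ordinal.{0}) : List ℕ → Prop
  | [] => True
  | k :: t => inT j a0 t ∧ ∃ i, i < lab j a0 t ∧ j i = k.unpair.2

theorem lab_lt {j : Ordinal.{0} → ℕ} {a0 : Ordinal.{0}} {k : ℕ} {t : List ℕ}
    (h : inT j a0 (k :: t)) : lab j a0 (k :: t) < lab j a0 t ∧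
      j (lab j a0 (k :: t)) = k.unpair.2 := by
  have h2 : ∃ i, i < lab j a0 t ∧ j i = k.unpair.2 := h.2
  have h3 : lab j a0 (k :: t) = h2.choose := by
    rw [lab, dif_pos h2]
  rw [h3]
  exact h2.choose_spec

theorem lab_le {j : Ordinal.{0} → ℕ} {a0 : Ordinal.{0}} (t : List ℕ) (h : inT j a0 t) :
    lab j a0 t ≤ a0 := by
  induction t with
  | nil => exact le_of_eq (by rw [lab])
  | cons k t ih => exact (lab_lt h).1.le.trans (ih h.1)

theorem exists_tree_abs [T2Space Y] [TopologicalSpace.SeparableSpace E] [Nonempty E]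
    (hK : IsCompact K)
    (hc : ∀ (c : E) (r : ℝ), IsClosed (φ ⁻¹' Metric.closedBall c r))
    (hφ : ∀ U : Set Y, IsOpen U → ∀ y ∈ U, ∃ ε > 0, ∀ y', dist (φ y') (φ y) < ε → y' ∈ U)
    (hδ : 0 < δ) :
    ∃ (T : Set (List ℕ)) (lab : List ℕ → Ordinal.{0}), [] ∈ T ∧
      (∀ k t, k :: t ∈ T → t ∈ T ∧ lab (k :: t) < lab t) ∧
      ¬ ∃ x : List ℕ → Y, (∀ t ∈ T, x t ∈ K) ∧
        (∀ k t, k :: t ∈ T → δ ≤ dist (φ (x (k :: t))) (φ (x t))) ∧
        (∀ t ∈ T, Tendsto (fun k => x (k :: t)) (atTop ⊓ 𝓟 {k | k :: t ∈ T}) (𝓝 (x t))) := by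
  classical
  have hcl : ∀ a, IsClosed (it φ δ K a) := isClosed_it φ δ hK.isClosed
  -- a set of the countable family meets each nonempty derivative and misses the next one
  have h1 : ∀ a : Ordinal.{0}, (it φ δ K a).Nonempty →
      ∃ k, (V φ k ∩ it φ δ K a).Nonempty ∧ V φ k ∩ der φ δ (it φ δ K a) = ∅ := by
    intro a ha
    obtain ⟨y, hy, hy'⟩ := exists_notMem_der hK hc hδ (hcl a) (it_subset φ δ K a) ha
    obtain ⟨k, hk1, hk2⟩ := exists_V hφ (isClosed_der φ δ (hcl a)).isOpen_compl hy'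
    refine ⟨k, ⟨y, hk1, hy⟩, ?_⟩
    rw [eq_empty_iff_forall_notMem]
    rintro z ⟨hz1, hz2⟩
    exact hk2 hz1 hz2
  let j : Ordinal.{0} → ℕ := fun a => if h : (it φ δ K a).Nonempty then (h1 a h).choose else 0
  have hj : ∀ a, (it φ δ K a).Nonempty → (V φ (j a) ∩ it φ δ K a).Nonempty ∧
      V φ (j a) ∩ der φ δ (it φ δ K a) = ∅ := by
    intro a ha
    have : j a = (h1 a ha).choose := dif_pos ha
    rw [this]
    exact (h1 a ha).choose_spec
  have hjlt : ∀ a b : Ordinal.{0}, a < b → (it φ δ K a).Nonempty → (it φ δ K b).Nonempty →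
      j a ≠ j b := by
    intro a b hab ha hb he
    obtain ⟨y, hy1, hy2⟩ := (hj b hb).1
    have h2 := it_subset_der φ δ K hab hy2
    have h3 : y ∈ V φ (j a) ∩ der φ δ (it φ δ K a) := ⟨he ▸ hy1, h2⟩
    rw [(hj a ha).2] at h3
    exact h3
  have hjinj : ∀ a b : Ordinal.{0}, (it φ δ K a).Nonempty → (it φ δ K b).Nonempty →
      j a = j b → a = b := by
    intro a b ha hb he
    rcases lt_trichotomy a b with h | h | h
    · exact absurd he (hjlt a b h ha hb)
    · exact h
    · exact absurd he.symm (hjlt b a h hb ha)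
  have hex : ∃ a : Ordinal.{0}, ¬ (it φ δ K a).Nonempty := by
    by_contra hcon
    push Not at hcon
    exact not_injective_of_ordinal j fun a b h => hjinj a b (hcon a) (hcon b) h
  let a0 : Ordinal.{0} := WellFounded.min (wellFounded_lt (α := Ordinal.{0}))
    {a | ¬ (it φ δ K a).Nonempty} hex
  have ha0 : ¬ (it φ δ K a0).Nonempty := WellFounded.min_mem _ _ hex
  have hlt0 : ∀ a, a < a0 → (it φ δ K a).Nonempty := by
    intro a ha
    by_contra hcon
    exact WellFounded.not_lt_min (wellFounded_lt (α := Ordinal.{0})) _ hcon ha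
  refine ⟨{t | inT j a0 t}, lab j a0, trivial, fun k t h => ⟨h.1, (lab_lt h).1⟩, ?_⟩
  rintro ⟨x, hxK, hxd, hxt⟩
  have key : ∀ a : Ordinal.{0}, ∀ t, inT j a0 t → lab j a0 t = a → x t ∈ it φ δ K a := by
    intro a
    induction a using WellFoundedLT.induction with
    | _ a ih =>
      intro t ht hta
      rw [it_eq]
      refine ⟨hxK t ht, mem_iInter.2 ?_⟩
      rintro ⟨i, hi⟩
      have hi' : i < a := hi
      have hta0 : a ≤ a0 := hta ▸ lab_le t ht
      -- the children with label `i`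
      have hch : ∀ l : ℕ, inT j a0 (Nat.pair l (j i) :: t) := by
        intro l
        refine ⟨ht, i, ?_, ?_⟩
        · rw [hta]; exact hi'
        · rw [Nat.unpair_pair]
      have hlab : ∀ l : ℕ, lab j a0 (Nat.pair l (j i) :: t) = i := by
        intro l
        obtain ⟨h2, h3⟩ := lab_lt (hch l)
        rw [Nat.unpair_pair] at h3
        refine hjinj _ _ (hlt0 _ ?_) (hlt0 _ (hi'.trans_le hta0)) h3
        exact (h2.trans_le (le_of_eq hta)).trans_le hta0
      have hmem : ∀ l : ℕ, x (Nat.pair l (j i) :: t) ∈ it φ δ K i :=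
        fun l => ih i hi' _ (hch l) (hlab l)
      have htend : Tendsto (fun l : ℕ => x (Nat.pair l (j i) :: t)) atTop (𝓝 (x t)) := by
        refine (hxt t ht).comp ?_
        refine tendsto_inf.2 ⟨?_, tendsto_principal.2 (Eventually.of_forall hch)⟩
        exact tendsto_atTop_mono (fun l => Nat.left_le_pair l (j i)) tendsto_id
      have hxi : x t ∈ it φ δ K i :=
        (hcl i).mem_of_tendsto htend (Eventually.of_forall hmem)
      refine ⟨hxi, ?_⟩
      rintro ⟨U, ⟨hUo, hU⟩, hxU⟩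
      obtain ⟨l, hl⟩ := (htend.eventually (hUo.mem_nhds hxU)).exists
      have h4 := hU _ ⟨hl, hmem l⟩ _ ⟨hxU, hxi⟩
      have h5 := hxd _ t (hch l)
      linarith
  exact ha0 ⟨x [], key a0 [] trivial (by rw [lab])⟩

end Abstract

theorem exists_tree (W : Type) [NormedAddCommGroup W] [NormedSpace ℝ W] [CompleteSpace W]
    [TopologicalSpace.SeparableSpace W] (hW : IsReflexive W) (δ : ℝ) (hδ : 0 < δ) :
    ∃ (T : Set (List ℕ)) (lab : List ℕ → Ordinal.{0}), [] ∈ T ∧
      (∀ k t, k :: t ∈ T → t ∈ T ∧ lab (k :: t) < lab t) ∧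
      ¬ ∃ x : List ℕ → W, (∀ t ∈ T, ‖x t‖ ≤ 1) ∧
        (∀ k t, k :: t ∈ T → δ ≤ ‖x (k :: t) - x t‖) ∧
        (∀ t ∈ T, ∀ f : StrongDual ℝ W,
          Tendsto (fun k => f (x (k :: t))) (atTop ⊓ 𝓟 {k | k :: t ∈ T}) (𝓝 (f (x t)))) := by
  set J := NormedSpace.inclusionInDoubleDual ℝ W with hJ
  have hJd : ∀ w w' : W, dist (J w) (J w') = dist w w' := fun w w' =>
    (NormedSpace.inclusionInDoubleDualLi ℝ (E := W)).dist_map w w'
  have : TopologicalSpace.SeparableSpace (StrongDual ℝ (StrongDual ℝ W)) :=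
    (hW.denseRange).separableSpace J.continuous
  obtain ⟨T, lab, h1, h2, h3⟩ := exists_tree_abs
    (Y := WeakDual ℝ (StrongDual ℝ W)) (E := StrongDual ℝ (StrongDual ℝ W))
    (φ := WeakDual.toStrongDual) (δ := δ)
    (K := WeakDual.toStrongDual ⁻¹' Metric.closedBall 0 1)
    (WeakDual.isCompact_closedBall 0 1) (fun c r => WeakDual.isClosed_closedBall c r)
    (by
      intro U hU y hy
      have hU' : IsOpen (StrongDual.toWeakDual ⁻¹' U : Set (StrongDual ℝ (StrongDual ℝ W))) :=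
        hU.preimage NormedSpace.Dual.toWeakDual_continuous
      obtain ⟨ε, hε, h⟩ := Metric.isOpen_iff.1 hU' (WeakDual.toStrongDual y) hy
      exact ⟨ε, hε, fun y' hy' => h (Metric.mem_ball.2 hy')⟩) hδ
  refine ⟨T, lab, h1, h2, ?_⟩
  rintro ⟨x, hx1, hx2, hx3⟩
  refine h3 ⟨fun t => StrongDual.toWeakDual (J (x t)), ?_, ?_, ?_⟩
  · intro t ht
    show J (x t) ∈ Metric.closedBall 0 1
    have h4 : dist (J (x t)) (J 0) ≤ 1 := by
      rw [hJd, dist_zero_right]; exact hx1 t ht
    rw [map_zero] at h4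
    exact Metric.mem_closedBall.2 h4
  · intro k t ht
    show δ ≤ dist (J (x (k :: t))) (J (x t))
    have h4 := hx2 k t ht
    rw [← dist_eq_norm, ← hJd] at h4
    exact h4
  · intro t ht
    rw [tendsto_iff_forall_eval_tendsto_topDualPairing]
    intro f
    exact hx3 t ht f

end Vale.Agent.P069.WT
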