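import Vale.Agent.P069.WT.Space
attribute [-instance] ProperSMul.toContinuousSMul IsTopologicalTorsor.toContinuousSMul IdemSemiring.toCanonicallyOrderedAdd IdemSemiring.toMulLeftMono IdemSemiring.toMulRightMono AddQuantale.instAddLeftMono AddQuantale.instAddRightMono Quantale.instMulLeftMono Quantale.instMulRightMono FiniteDimensional.rclike_to_real IsScalarTower.complexToReal FiniteDimensional.complexToReal

/-!
# The key decomposition for the James-tree norm
-/

open Filter Topology TopologicalSpace Finset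
open scoped ENNReal

namespace Vale.Agent.P069.WT

open JT

/-- The size of the segment sums of `g` beyond `v`. -/
noncomputable def MM (D : Finset (List ℕ)) (g : EE) (v : List ℕ) : ℝ :=
  sSup {x | ∃ t, vv D t = v ∧ |df g (v, t)| = x}

lemma bddAbove_MM (D : Finset (List ℕ)) (g : EE) (v : List ℕ) :
    BddAbove {x | ∃ t, vv D t = v ∧ |df g (v, t)| = x} := by
  refine ⟨‖SI g‖, ?_⟩
  rintro x ⟨t, rfl, rfl⟩
  exact abs_df_le g (vv_suffix t)

lemma le_MM (D : Finset (List ℕ)) (g : EE) (t : List ℕ) :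
    |df g (vv D t, t)| ≤ MM D g (vv D t) :=
  le_csSup (bddAbove_MM D g _) ⟨t, rfl, rfl⟩

lemma MM_nonneg {D : Finset (List ℕ)} (g : EE) {v : List ℕ} (hv : v ∈ D) :
    0 ≤ MM D g v := by
  have h := le_MM D g v
  rw [vv_of_mem hv] at h
  exact (abs_nonneg _).trans h

lemma sum_MM_le {D : Finset (List ℕ)} (hD : ∀ k t, k :: t ∈ D → t ∈ D) (g : EE) :
    ∑ v ∈ D, MM D g v ^ 2 ≤ ‖SI g‖ ^ 2 := by
  have main : ∀ θ : ℝ, 0 ≤ θ → θ < 1 → θ ^ 2 * ∑ v ∈ D, MM D g v ^ 2 ≤ ‖SI g‖ ^ 2 := by
    intro θ hθ0 hθ1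
    have h1 : ∀ v : {v // v ∈ D}, ∃ t, vv D t = v.1 ∧ θ * MM D g v.1 ≤ |df g (v.1, t)| := by
      intro v
      rcases eq_or_lt_of_le (MM_nonneg g v.2) with h | h
      · exact ⟨v.1, vv_of_mem v.2, by rw [← h, mul_zero]; exact abs_nonneg _⟩
      · have hne : {x | ∃ t, vv D t = v.1 ∧ |df g (v.1, t)| = x}.Nonempty :=
          ⟨_, v.1, vv_of_mem v.2, rfl⟩
        have hlt : θ * MM D g v.1 < sSup {x | ∃ t, vv D t = v.1 ∧ |df g (v.1, t)| = x} := by
          change _ < MM D g v.1
          nlinarith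
        obtain ⟨x, ⟨t, ht, rfl⟩, hx⟩ := exists_lt_of_lt_csSup hne hlt
        exact ⟨t, ht, hx.le⟩
    choose τ hτ1 hτ2 using h1
    have hon : ∀ (v : {v // v ∈ D}) (u : List ℕ), On u (v.1, τ v) → vv D u = v.1 := by
      intro v u hu
      obtain ⟨hu1, hu2⟩ := hu
      simp only at hu1 hu2
      have h2 : v.1 <:+ τ v := by
        have := vv_suffix (D := D) (τ v)
        rwa [hτ1] at this
      have h3 : v.1 <:+ u := by
        rcases List.suffix_or_suffix_of_suffix h2 hu1 with h3 | h3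
        · exact h3
        · exact absurd h3 hu2
      have h4 : u ∉ D := fun hu => hu2 (by
        have := suffix_vv hu hu1
        rwa [hτ1] at this)
      rw [vv_eq_of_not_mem hD hu1 h4, hτ1]
    have hS : IsSys (fun v : {v // v ∈ D} => (v.1, τ v)) := by
      refine ⟨fun v => ?_, fun v w hvw u hu hu' => hvw ?_⟩
      · have := vv_suffix (D := D) (τ v)
        rwa [hτ1] at this
      · exact Subtype.ext ((hon v u hu).symm.trans (hon w u hu'))
    refine le_trans ?_ (sum_le_SI g hS)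
    rw [mul_sum, ← sum_coe_sort]
    refine sum_le_sum fun v _ => ?_
    have h5 := hτ2 v
    rw [← mul_pow, ← sq_abs (df g _)]
    exact pow_le_pow_left₀ (mul_nonneg hθ0 (MM_nonneg g v.2)) h5 2
  have hlim : Tendsto (fun θ : ℝ => θ ^ 2 * ∑ v ∈ D, MM D g v ^ 2) (𝓝[<] 1)
      (𝓝 (1 ^ 2 * ∑ v ∈ D, MM D g v ^ 2)) := by
    have : Continuous fun θ : ℝ => θ ^ 2 * ∑ v ∈ D, MM D g v ^ 2 := by fun_prop
    exact (this.tendsto 1).mono_left nhdsWithin_le_nhds
  rw [one_pow, one_mul] at hlim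
  refine le_of_tendsto hlim ?_
  filter_upwards [Ioo_mem_nhdsLT (show (0 : ℝ) < 1 by norm_num)] with θ hθ
  exact main θ hθ.1.le hθ.2

theorem key_SI {D : Finset (List ℕ)} (h0 : [] ∈ D) (hD : ∀ k t, k :: t ∈ D → t ∈ D)
    {f g h : EE} {a c : ℝ} (ha : 0 ≤ a) (hc : 0 ≤ c) {σ : List ℕ → ℝ}
    (hf : ∀ t, cu f t = cu f (vv D t)) (hσ : ∀ v, σ v = 1 ∨ σ v = -1)
    (hσ2 : ∀ v s, s <:+ v → σ v * (cu f v - cu f s) < 0 →
      c * MM D g v < a * |cu f v - cu f s| →
      ∃ m, s <:+ m ∧ m <:+ v ∧ c * MM D g v < a * (σ v * (cu f v - cu f m)))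
    (hh0 : ∀ t ∈ D, cu h t = 0) (hsign : ∀ t, σ (vv D t) * cu h t ≤ 0)
    (hle : ∀ t, |cu h t| ≤ |df g (vv D t, t)|)
    (hlip : ∀ s t, s <:+ t → s ∉ D → |cu h t - cu h s| ≤ |df g (s, t)|) :
    ‖SI (a • f + c • h)‖ ^ 2 ≤ a ^ 2 * ‖SI f‖ ^ 2 + 3 * c ^ 2 * ‖SI g‖ ^ 2 := by
  classical
  refine SI_le fun m S hS => ?_
  have hcum : ∀ t, cu (a • f + c • h : EE) t = a * cu f (vv D t) + c * cu h t := by
    intro t
    rw [cu_lin, hf]
  have key : ∀ i, ∃ μ, vv D (S i).1 <:+ μ ∧ μ <:+ vv D (S i).2 ∧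
      df (a • f + c • h : EE) (S i) ^ 2 ≤
        a ^ 2 * (df f (vv D (S i).1, μ) ^ 2 + df f (μ, vv D (S i).2) ^ 2) +
        c ^ 2 * df g (Dout D (S i)) ^ 2 +
        2 * c ^ 2 * (if (S i).1 ∈ D ∧ (S i).1 ≠ vv D (S i).2 then
          MM D g (vv D (S i).2) ^ 2 else 0) := by
    intro i
    rcases hSi : S i with ⟨s, t⟩
    have hst : s <:+ t := by
      have := hS.1 i
      rwa [hSi] at this
    simp only
    have hc2 : 0 ≤ 2 * c ^ 2 := by positivity
    by_cases hs : s ∈ D
    · -- crossing or inner segments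
      have e1 : df (a • f + c • h : EE) (s, t) =
          a * (cu f (vv D t) - cu f s) + c * cu h t := by
        rw [df, hcum, hcum, hh0 s hs, vv_of_mem hs]; ring
      have e2 : df g (Dout D (s, t)) = df g (vv D t, t) := by
        rw [Dout]; simp only [if_pos hs]
      rw [e1, e2, vv_of_mem hs]
      have hsv : s <:+ vv D t := suffix_vv hs hst
      have hH := hle t
      have hHM := hH.trans (le_MM D g t)
      have hH2 : cu h t ^ 2 ≤ df g (vv D t, t) ^ 2 := sq_le_sq.2 hH
      have hcH2 := mul_le_mul_of_nonneg_left hH2 (sq_nonneg c)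
      have hM0 := MM_nonneg g (vv_mem h0 t)
      have hsg := hsign t
      have hite : 0 ≤ (if s ∈ D ∧ s ≠ vv D t then MM D g (vv D t) ^ 2 else 0) := by
        split_ifs
        · exact sq_nonneg _
        · exact le_rfl
      rcases lt_or_ge (σ (vv D t) * (cu f (vv D t) - cu f s)) 0 with hx | hx
      · rcases lt_or_ge (c * MM D g (vv D t)) (a * |cu f (vv D t) - cu f s|)
          with hb | hb
        · obtain ⟨μ, h1, h2, h3⟩ := hσ2 _ s hsv hx hb
          refine ⟨μ, h1, h2, ?_⟩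
          have h4 := split_ineq ha hc (hσ _) hx hHM h3
          have e3 : df f (s, μ) = (cu f (vv D t) - cu f s) -
              (cu f (vv D t) - cu f μ) := by rw [df]; ring
          have e4 : df f (μ, vv D t) = cu f (vv D t) - cu f μ := rfl
          rw [e3, e4]
          have := mul_nonneg hc2 hite
          linarith
        · refine ⟨vv D t, hsv, List.suffix_rfl, ?_⟩
          have hne : s ≠ vv D t := by
            rintro h
            rw [← h, sub_self, mul_zero] at hx
            exact lt_irrefl _ hx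
          rw [if_pos ⟨hs, hne⟩]
          have e3 : df f (s, vv D t) = cu f (vv D t) - cu f s := rfl
          have e4 : df f (vv D t, vv D t) = 0 := by rw [df]; ring
          rw [e3, e4]
          set x := cu f (vv D t) - cu f s
          set H := cu h t
          set M := MM D g (vv D t)
          have h5 : (a * x) * (c * H) ≤ (c * M) * (c * M) := by
            calc (a * x) * (c * H) ≤ |(a * x) * (c * H)| := le_abs_self _
              _ = (a * |x|) * (c * |H|) := by
                rw [abs_mul, abs_mul, abs_mul, abs_of_nonneg ha, abs_of_nonneg hc]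
              _ ≤ (c * M) * (c * M) := by
                apply mul_le_mul hb (mul_le_mul_of_nonneg_left hHM hc) (by positivity)
                  (by positivity)
          nlinarith
      · refine ⟨vv D t, hsv, List.suffix_rfl, ?_⟩
        have e3 : df f (s, vv D t) = cu f (vv D t) - cu f s := rfl
        have e4 : df f (vv D t, vv D t) = 0 := by rw [df]; ring
        rw [e3, e4]
        set x := cu f (vv D t) - cu f s
        set H := cu h t
        have h5 : (a * x) * (c * H) ≤ 0 := by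
          have hac : 0 ≤ a * c := mul_nonneg ha hc
          have hxH : x * H ≤ 0 := by
            rcases hσ (vv D t) with h | h
            · rw [h] at hx hsg
              exact mul_nonpos_of_nonneg_of_nonpos (by linarith) (by linarith)
            · rw [h] at hx hsg
              exact mul_nonpos_of_nonpos_of_nonneg (by linarith) (by linarith)
          nlinarith [mul_le_mul_of_nonneg_left hxH hac]
        have := mul_nonneg hc2 hite
        nlinarith
    · -- outer segments
      have hvv := vv_eq_of_not_mem hD hst hs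
      refine ⟨vv D t, by rw [hvv], List.suffix_rfl, ?_⟩
      have e1 : df (a • f + c • h : EE) (s, t) = c * (cu h t - cu h s) := by
        rw [df, hcum, hcum, hvv]; ring
      have e2 : df g (Dout D (s, t)) = df g (s, t) := by
        rw [Dout]; simp only [if_neg hs]
      have e3 : df f (vv D s, vv D t) = 0 := by rw [hvv, df]; ring
      have e4 : df f (vv D t, vv D t) = 0 := by rw [df]; ring
      rw [e1, e2, e3, e4, if_neg (fun h => hs h.1)]
      have h1 : (cu h t - cu h s) ^ 2 ≤ df g (s, t) ^ 2 := sq_le_sq.2 (hlip s t hst hs)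
      have h2 := mul_le_mul_of_nonneg_left h1 (sq_nonneg c)
      nlinarith
  choose μ h1 h2 h3 using key
  have hA : IsSys (Sum.elim (fun i => (vv D (S i).1, μ i)) fun i => (μ i, vv D (S i).2)) := by
    have o1 : ∀ i u, On u (vv D (S i).1, μ i) → On u (S i) := fun i u hu =>
      (on_Din h0 hD (p := S i) ⟨hu.1.trans (h2 i), hu.2⟩).2
    have o2 : ∀ i u, On u (μ i, vv D (S i).2) → On u (S i) := fun i u hu =>
      (on_Din h0 hD (p := S i) ⟨hu.1, fun h => hu.2 (h.trans (h1 i))⟩).2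
    constructor
    · rintro (i | i)
      · exact h1 i
      · exact h2 i
    · rintro (i | i) (j | j) hij u hi hj
      · exact hS.2 i j (fun h => hij (by rw [h])) u (o1 i u hi) (o1 j u hj)
      · by_cases h : i = j
        · subst h
          exact hj.2 hi.1
        · exact hS.2 i j h u (o1 i u hi) (o2 j u hj)
      · by_cases h : i = j
        · subst h
          exact hi.2 hj.1
        · exact hS.2 i j h u (o2 i u hi) (o1 j u hj)
      · exact hS.2 i j (fun h => hij (by rw [h])) u (o2 i u hi) (o2 j u hj)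
  have hB : IsSys fun i => Dout D (S i) :=
    ⟨fun i => suffix_Dout (hS.1 i), fun i j hij u hi hj =>
      hS.2 i j hij u (on_Dout hD (hS.1 i) hi).2 (on_Dout hD (hS.1 j) hj).2⟩
  have sA := sum_le_SI f hA
  rw [Fintype.sum_sum_type] at sA
  simp only [Sum.elim_inl, Sum.elim_inr] at sA
  have sB := sum_le_SI g hB
  have sC : ∑ i, (if (S i).1 ∈ D ∧ (S i).1 ≠ vv D (S i).2 then
      MM D g (vv D (S i).2) ^ 2 else 0) ≤ ‖SI g‖ ^ 2 := by
    refine le_trans ?_ (sum_MM_le hD g)
    rw [← sum_filter, ← sum_image (f := fun v => MM D g v ^ 2)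
      (g := fun i => vv D (S i).2)]
    · refine sum_le_sum_of_subset_of_nonneg ?_ fun _ _ _ => sq_nonneg _
      intro v hv
      rw [mem_image] at hv
      obtain ⟨i, _, rfl⟩ := hv
      exact vv_mem h0 _
    · intro i hi j hj hij
      rw [mem_coe, mem_filter] at hi hj
      by_contra hne
      have hon : ∀ i, ((S i).1 ∈ D ∧ (S i).1 ≠ vv D (S i).2) → On (vv D (S i).2) (S i) := by
        intro i hi
        refine ⟨vv_suffix _, fun h => hi.2 ?_⟩
        have h4 : (S i).1 <:+ vv D (S i).2 := suffix_vv hi.1 (hS.1 i)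
        exact h4.eq_of_length (le_antisymm h4.length_le h.length_le)
      have h5 := hon j hj.2
      have hij' : vv D (S i).2 = vv D (S j).2 := hij
      rw [← hij'] at h5
      exact hS.2 i j hne _ (hon i hi.2) h5
  calc ∑ i, df (a • f + c • h : EE) (S i) ^ 2 ≤ ∑ i, (a ^ 2 *
        (df f (vv D (S i).1, μ i) ^ 2 + df f (μ i, vv D (S i).2) ^ 2) +
        c ^ 2 * df g (Dout D (S i)) ^ 2 +
        2 * c ^ 2 * (if (S i).1 ∈ D ∧ (S i).1 ≠ vv D (S i).2 then
          MM D g (vv D (S i).2) ^ 2 else 0)) := sum_le_sum fun i _ => h3 i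
    _ = a ^ 2 * (∑ i, df f (vv D (S i).1, μ i) ^ 2 + ∑ i, df f (μ i, vv D (S i).2) ^ 2) +
        c ^ 2 * ∑ i, df g (Dout D (S i)) ^ 2 +
        2 * c ^ 2 * ∑ i, (if (S i).1 ∈ D ∧ (S i).1 ≠ vv D (S i).2 then
          MM D g (vv D (S i).2) ^ 2 else 0) := by
      rw [sum_add_distrib, sum_add_distrib, ← mul_sum, ← mul_sum, ← mul_sum, sum_add_distrib]
    _ ≤ a ^ 2 * ‖SI f‖ ^ 2 + c ^ 2 * ‖SI g‖ ^ 2 + 2 * c ^ 2 * ‖SI g‖ ^ 2 := by
      gcongr
    _ = _ := by ring

/-- Increments of a function on the tree. -/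
def inr (H : List ℕ → ℝ) : List ℕ → ℝ
  | [] => 0
  | k :: t => H (k :: t) - H t

lemma cu_inr {H : List ℕ → ℝ} (h0 : H [] = 0) (t : List ℕ) : cu (inr H) t = H t := by
  induction t with
  | nil => rw [cu_nil, h0]
  | cons k t ih => rw [cu_cons, ih, inr]; ring

theorem key_dec {D : Finset (List ℕ)} (h0 : [] ∈ D) (hD : ∀ k t, k :: t ∈ D → t ∈ D)
    (f g : EE) (hf : ∀ t, t ∉ D → f t = 0) {a c : ℝ} (ha : 0 ≤ a) (hc : 0 ≤ c) :
    ∃ h₁ h₂ : EE, g - pr (D : Set (List ℕ)) g = h₁ - h₂ ∧ pr (D : Set (List ℕ)) h₁ = 0 ∧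
      pr (D : Set (List ℕ)) h₂ = 0 ∧ (∀ t, g t = 0 → h₁ t = 0) ∧ (∀ t, g t = 0 → h₂ t = 0) ∧
      ‖SI (a • f + c • h₁)‖ ^ 2 ≤ a ^ 2 * ‖SI f‖ ^ 2 + 3 * c ^ 2 * ‖SI g‖ ^ 2 ∧
      ‖SI (a • f + c • h₂)‖ ^ 2 ≤ a ^ 2 * ‖SI f‖ ^ 2 + 3 * c ^ 2 * ‖SI g‖ ^ 2 := by
  classical
  set g' : EE := g - pr (D : Set (List ℕ)) g with hg'
  have hg'a : ∀ t, g' t = if t ∈ D then 0 else g t := by
    intro t
    rw [hg', Finsupp.sub_apply]
    split_ifs with h
    · rw [pr_mem _ (mem_coe.2 h), sub_self]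
    · rw [pr_not_mem _ (fun h' => h (mem_coe.1 h')), sub_zero]
  set G : List ℕ → ℝ := fun t => cu g' t with hG
  have hG1 : ∀ t, G t = df g (vv D t, t) := by
    intro t
    rw [df]
    simp only [hG]
    rw [hg', cu_sub, cu_pr hD]
  have hGD : ∀ t ∈ D, G t = 0 := by
    intro t ht
    rw [hG1, vv_of_mem ht, df]
    ring
  have hGcons : ∀ k t, G (k :: t) = G t + g' (k :: t) := fun k t => rfl
  choose τ hτ1 hτ2 using fun v => exists_sign (cu f) (cu f v) a (c * MM D g v) v
  set σ : List ℕ → ℝ := fun t => τ (vv D t) with hσ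
  have hσ1 : ∀ t, σ t = 1 ∨ σ t = -1 := fun t => hτ1 _
  have hσσ : ∀ t, σ t * σ t = 1 := fun t => by rcases hσ1 t with h | h <;> rw [h] <;> norm_num
  have hσabs : ∀ t x, |σ t * x| = |x| := fun t x => by
    rw [abs_mul]; rcases hσ1 t with h | h <;> rw [h] <;> simp
  have gen : ∀ e : ℝ, (e = 1 ∨ e = -1) →
      ∃ h : EE, (∀ t, h t = inr (fun t => -(σ t * max (-(e * (σ t * G t))) 0)) t) ∧
        pr (D : Set (List ℕ)) h = 0 ∧ (∀ t, g t = 0 → h t = 0) ∧
        ‖SI (a • f + c • h)‖ ^ 2 ≤ a ^ 2 * ‖SI f‖ ^ 2 + 3 * c ^ 2 * ‖SI g‖ ^ 2 := by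
    intro e he
    set H : List ℕ → ℝ := fun t => -(σ t * max (-(e * (σ t * G t))) 0) with hH
    have habse : ∀ y : ℝ, |e * y| = |y| := fun y => by
      rw [abs_mul]; rcases he with h | h <;> rw [h] <;> simp
    have hHD : ∀ t ∈ D, H t = 0 := by
      intro t ht
      simp only [hH, hGD t ht]
      simp
    have hHle : ∀ t, |H t| ≤ |G t| := by
      intro t
      simp only [hH]
      rw [abs_neg, hσabs]
      have h1 := abs_max_sub_max_le_abs (-(e * (σ t * G t))) 0 0
      rw [max_self, sub_zero, sub_zero, abs_neg, habse, hσabs] at h1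
      exact h1
    have hlip : ∀ s t, s <:+ t → s ∉ D → |H t - H s| ≤ |G t - G s| := by
      intro s t hst hs
      have hσst : σ s = σ t := by
        simp only [hσ]
        rw [vv_eq_of_not_mem hD hst hs]
      simp only [hH]
      rw [hσst, neg_sub_neg, ← mul_sub, hσabs, abs_sub_comm]
      have h1 := abs_max_sub_max_le_abs (-(e * (σ t * G t))) (-(e * (σ t * G s))) 0
      rw [neg_sub_neg, abs_sub_comm (e * (σ t * G s)), ← mul_sub, ← mul_sub, habse, hσabs] at h1
      exact h1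
    have hdiff : ∀ k t, |H (k :: t) - H t| ≤ |G (k :: t) - G t| := by
      intro k t
      by_cases ht : t ∈ D
      · rw [hHD t ht, hGD t ht, sub_zero, sub_zero]
        exact hHle _
      · exact hlip t (k :: t) (List.suffix_cons k t) ht
    have hinc : ∀ t, |inr H t| ≤ |g' t| := by
      intro t
      cases t with
      | nil => rw [inr, abs_zero]; exact abs_nonneg _
      | cons k t =>
        rw [inr]
        have h1 := hdiff k t
        rwa [hGcons, add_sub_cancel_left] at h1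
    have hsup : ∀ t, inr H t ≠ 0 → t ∈ g'.support := by
      intro t ht
      rw [Finsupp.mem_support_iff]
      intro h2
      have h1 := hinc t
      rw [h2, abs_zero] at h1
      exact ht (abs_eq_zero.1 (le_antisymm h1 (abs_nonneg _)))
    have hgz : ∀ t, g t = 0 → inr H t = 0 := by
      intro t ht
      by_contra h2
      have h3 := Finsupp.mem_support_iff.1 (hsup t h2)
      apply h3
      rw [hg'a]
      split_ifs
      · rfl
      · exact ht
    have hzero : ∀ t ∈ D, inr H t = 0 := by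
      intro t ht
      have h1 := hinc t
      rw [hg'a, if_pos ht, abs_zero] at h1
      exact abs_eq_zero.mp (le_antisymm h1 (abs_nonneg _))
    set h : EE := Finsupp.onFinset g'.support (inr H) hsup with hh
    have hcumh : ∀ t, cu h t = H t := fun t => cu_inr (hHD [] h0) t
    refine ⟨h, fun t => rfl, ?_, fun t ht => hgz t ht, ?_⟩
    · ext t
      by_cases ht : t ∈ D
      · rw [pr_mem _ (mem_coe.2 ht)]
        exact hzero t ht
      · rw [pr_not_mem _ (fun h' => ht (mem_coe.1 h'))]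
        rfl
    · refine key_SI h0 hD ha hc (σ := τ) (fun t => cu_supp hf t) hτ1
          (fun v s => hτ2 v s) (fun t ht => ?_) (fun t => ?_) (fun t => ?_)
          (fun s t hst hs => ?_)
      · rw [hcumh, hHD t ht]
      · rw [hcumh]
        simp only [hH]
        have h2 : 0 ≤ max (-(e * (σ t * G t))) 0 := le_max_right _ _
        have h3 : τ (vv D t) * -(σ t * max (-(e * (σ t * G t))) 0) =
            -((σ t * σ t) * max (-(e * (σ t * G t))) 0) := by
          simp only [hσ]; ring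
        rw [h3, hσσ]
        linarith
      · rw [hcumh, ← hG1]
        exact hHle t
      · rw [hcumh, hcumh]
        have h1 := hlip s t hst hs
        have h2 : G t - G s = df g (s, t) := by
          rw [hG1, hG1, df, df, df]
          simp only
          rw [vv_eq_of_not_mem hD hst hs]
          ring
        rwa [h2] at h1
  obtain ⟨h₁, h1a, h1b, h1d, h1c⟩ := gen 1 (Or.inl rfl)
  obtain ⟨h₂, h2a, h2b, h2d, h2c⟩ := gen (-1) (Or.inr rfl)
  refine ⟨h₁, h₂, ?_, h1b, h2b, h1d, h2d, h1c, h2c⟩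
  ext t
  change g' t = h₁ t - h₂ t
  rw [h1a, h2a]
  have hmm : ∀ t, -(σ t * max (-(1 * (σ t * G t))) 0) - -(σ t * max (-(-1 * (σ t * G t))) 0)
      = G t := by
    intro t
    have h3 : max (-(-1 * (σ t * G t))) 0 - max (-(1 * (σ t * G t))) 0 = σ t * G t := by
      rcases le_total 0 (σ t * G t) with h | h
      · rw [max_eq_left (by linarith), max_eq_right (by linarith)]; ring
      · rw [max_eq_right (by linarith), max_eq_left (by linarith)]; ring
    calc _ = σ t * (max (-(-1 * (σ t * G t))) 0 - max (-(1 * (σ t * G t))) 0) := by ring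
      _ = G t := by rw [h3, ← mul_assoc, hσσ, one_mul]
  cases t with
  | nil =>
    rw [inr, inr, hg'a, if_pos h0, sub_zero]
  | cons k t =>
    rw [inr, inr]
    have h3 := hmm (k :: t)
    have h4 := hmm t
    have h5 := hGcons k t
    linarith

/-- The key decomposition in the space over `T`. -/
theorem key_dec_T (T : Set (List ℕ)) {D : Finset (List ℕ)} (h0 : [] ∈ D)
    (hD : ∀ k t, k :: t ∈ D → t ∈ D) (f₀ g : EE) {a c : ℝ} (ha : 0 ≤ a) (hc : 0 ≤ c) :
    ∃ h₁ h₂ : EE, toY T (g - pr (D : Set (List ℕ)) g) = toY T (h₁ - h₂) ∧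
      pr (D : Set (List ℕ)) h₁ = 0 ∧ pr (D : Set (List ℕ)) h₂ = 0 ∧
      ‖toY T (a • pr (D : Set (List ℕ)) f₀ + c • h₁)‖ ^ 2 ≤
        a ^ 2 * ‖toY T (pr (D : Set (List ℕ)) f₀)‖ ^ 2 + 3 * c ^ 2 * ‖toY T g‖ ^ 2 ∧
      ‖toY T (a • pr (D : Set (List ℕ)) f₀ + c • h₂)‖ ^ 2 ≤
        a ^ 2 * ‖toY T (pr (D : Set (List ℕ)) f₀)‖ ^ 2 + 3 * c ^ 2 * ‖toY T g‖ ^ 2 := by
  obtain ⟨h₁, h₂, e, r1, r2, s1, s2, n1, n2⟩ := key_dec h0 hD (pr T (pr (D : Set (List ℕ)) f₀))
    (pr T g) (fun t ht => by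
      rw [pr_comm, pr_not_mem _ (fun h => ht (mem_coe.1 h))]) ha hc
  have p1 : pr T h₁ = h₁ := pr_eq_self fun t ht => s1 t (pr_not_mem _ ht)
  have p2 : pr T h₂ = h₂ := pr_eq_self fun t ht => s2 t (pr_not_mem _ ht)
  refine ⟨h₁, h₂, ?_, r1, r2, ?_, ?_⟩
  · apply Subtype.ext
    change SI (pr T (g - pr (D : Set (List ℕ)) g)) = SI (pr T (h₁ - h₂))
    rw [map_sub (pr T) h₁, p1, p2, ← e, map_sub, pr_comm]
  · rw [norm_toY, norm_toY, norm_toY, map_add, map_smul, map_smul, p1]
    exact n1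
  · rw [norm_toY, norm_toY, norm_toY, map_add, map_smul, map_smul, p2]
    exact n2

end Vale.Agent.P069.WT
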