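import Vale.Agent.P069.WT.Space
attribute [-instance] ProperSMul.toContinuousSMul IsTopologicalTorsor.toContinuousSMul IdemSemiring.toCanonicallyOrderedAdd IdemSemiring.toMulLeftMono IdemSemiring.toMulRightMono AddQuantale.instAddLeftMono AddQuantale.instAddRightMono Quantale.instMulLeftMono Quantale.instMulRightMono FiniteDimensional.rclike_to_real IsScalarTower.complexToReal FiniteDimensional.complexToReal

/-!
# The coordinate functionals span a dense subspace of the dual, for a well-founded set of nodes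
-/

open Filter Topology TopologicalSpace Finset
open scoped ENNReal

namespace Vale.Agent.P069.WT

open JT

/-- The nodes above one of the successors `k :: t` with `N ≤ k`. -/
def Gt (t : List ℕ) (N : ℕ) : Set (List ℕ) := {s | ∃ k, N ≤ k ∧ (k :: t) <:+ s}

/-- The nodes above `t`. -/
def Su (t : List ℕ) : Set (List ℕ) := {s | t <:+ s}

lemma Gt_up {t : List ℕ} {N : ℕ} (k : ℕ) (s : List ℕ) (h : s ∈ Gt t N) : k :: s ∈ Gt t N := by
  obtain ⟨k', hk, hs⟩ := h
  exact ⟨k', hk, hs.trans (List.suffix_cons _ _)⟩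

lemma Su_up {t : List ℕ} (k : ℕ) (s : List ℕ) (h : s ∈ Su t) : k :: s ∈ Su t :=
  List.IsSuffix.trans h (List.suffix_cons _ _)

lemma Gt_mono {t : List ℕ} {N N' : ℕ} (h : N ≤ N') {s : List ℕ} (hs : s ∈ Gt t N') :
    s ∈ Gt t N := by
  obtain ⟨k, hk, hs⟩ := hs
  exact ⟨k, h.trans hk, hs⟩

lemma succ_inj {t s : List ℕ} {k k' : ℕ} (h : (k :: t) <:+ s) (h' : (k' :: t) <:+ s) : k = k' := by
  have h1 : (k :: t) <:+ (k' :: t) :=
    List.suffix_of_suffix_length_le h h' (by simp)
  have h2 : k :: t = k' :: t := h1.eq_of_length (by simp)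
  exact (List.cons.inj h2).1

lemma norm_toY_up_le (T : Set (List ℕ)) {G : Set (List ℕ)} (hG : ∀ k t, t ∈ G → k :: t ∈ G)
    (w : EE) : ‖toY T (pr G w)‖ ≤ ‖toY T w‖ := by
  rw [norm_toY, norm_toY, pr_comm]
  exact norm_pr_up_le hG _

lemma es_pr_mem (T : Set (List ℕ)) {A : Set (List ℕ)} {s : List ℕ} (h : s ∈ A) (w : EE) :
    es T s (toY T (pr A w)) = es T s (toY T w) := by
  cases s with
  | nil => rw [es_nil]; rfl
  | cons k t => rw [es_toY_cons, es_toY_cons, pr_comm, pr_mem _ h]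

lemma es_pr_not_mem (T : Set (List ℕ)) {A : Set (List ℕ)} {s : List ℕ} (h : s ∉ A) (w : EE) :
    es T s (toY T (pr A w)) = 0 := by
  cases s with
  | nil => rw [es_nil]; rfl
  | cons k t => rw [es_toY_cons, pr_comm, pr_not_mem _ h]

lemma fs_single (T : Set (List ℕ)) (s : List ℕ) (c : ℝ) (y : YT T) :
    fs T (Finsupp.single s c) y = c * es T s y := by
  rw [fs, Finsupp.linearCombination_single]
  rfl

lemma pr_single_mem {A : Set (List ℕ)} {s : List ℕ} (h : s ∈ A) (c : ℝ) :
    pr A (Finsupp.single s c) = Finsupp.single s c :=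
  pr_eq_self fun t ht => Finsupp.single_eq_of_ne (by rintro rfl; exact ht h)

lemma pr_single_not_mem {A : Set (List ℕ)} {s : List ℕ} (h : s ∉ A) (c : ℝ) :
    pr A (Finsupp.single s c) = 0 := by
  ext t
  by_cases ht : t ∈ A
  · rw [pr_mem _ ht, Finsupp.single_eq_of_ne (by rintro rfl; exact h ht)]; rfl
  · rw [pr_not_mem _ ht]; rfl

lemma fs_pr (T A : Set (List ℕ)) (a w : EE) :
    fs T (pr A a) (toY T w) = fs T a (toY T (pr A w)) := by
  induction a using Finsupp.induction_linear with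
  | zero => rw [map_zero, map_zero]; rfl
  | add a b ha hb =>
    rw [map_add, map_add, map_add, add_apply, add_apply, ha, hb]
  | single s c =>
    by_cases h : s ∈ A
    · rw [pr_single_mem h, fs_single, fs_single, es_pr_mem T h]
    · rw [pr_single_not_mem h, fs_single, es_pr_not_mem T h, map_zero, mul_zero]
      rfl

lemma upper_toY (T : Set (List ℕ)) {v w : EE}
    (h : ∀ s t, v s ≠ 0 → w t ≠ 0 → ¬ s <:+ t ∧ ¬ t <:+ s) :
    ‖toY T (v + w)‖ ^ 2 ≤ ‖toY T v‖ ^ 2 + ‖toY T w‖ ^ 2 := by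
  rw [norm_toY, norm_toY, norm_toY, map_add]
  refine upper_two fun s t hs ht => h s t (fun h0 => hs ?_) (fun h0 => ht ?_)
  · by_cases h1 : s ∈ T
    · rw [pr_mem _ h1, h0]
    · rw [pr_not_mem _ h1]
  · by_cases h1 : t ∈ T
    · rw [pr_mem _ h1, h0]
    · rw [pr_not_mem _ h1]

lemma eventually_not_mem_Gt (t s : List ℕ) : ∀ᶠ N in atTop, s ∉ Gt t N := by
  by_cases h : ∃ k : ℕ, (k :: t) <:+ s
  · obtain ⟨k, hk⟩ := h
    filter_upwards [eventually_ge_atTop (k + 1)] with N hN
    rintro ⟨k', hk', hs⟩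
    have := succ_inj hk hs
    omega
  · exact Eventually.of_forall fun N ⟨k', _, hs⟩ => h ⟨k', hs⟩

/-- The functional is small on the far successors. -/
lemma exists_far (T : Set (List ℕ)) (u : StrongDual ℝ (YT T)) (t : List ℕ) {ε : ℝ} (hε : 0 < ε) :
    ∃ N, ∀ w : EE, (∀ s, w s ≠ 0 → s ∈ Gt t N) → |u (toY T w)| ≤ ε * ‖toY T w‖ := by
  by_contra hcon
  push Not at hcon
  -- normalised vectors
  have h1 : ∀ N, ∃ w : EE, (∀ s, w s ≠ 0 → s ∈ Gt t N) ∧ ‖toY T w‖ ≤ 1 ∧ ε ≤ u (toY T w) := by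
    intro N
    obtain ⟨w, hw, hlt⟩ := hcon N
    have hpos : 0 < ‖toY T w‖ := by
      rcases (norm_nonneg (toY T w)).eq_or_lt with h | h
      · have h0 : toY T w = 0 := norm_eq_zero.1 h.symm
        rw [h0, norm_zero, mul_zero, map_zero, abs_zero] at hlt
        exact absurd hlt (lt_irrefl _)
      · exact h
    have key : ∀ c : ℝ, |c| = 1 → c * u (toY T w) = |u (toY T w)| →
        ∃ w' : EE, (∀ s, w' s ≠ 0 → s ∈ Gt t N) ∧ ‖toY T w'‖ ≤ 1 ∧ ε ≤ u (toY T w') := by
      intro c hc hcu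
      refine ⟨(c / ‖toY T w‖) • w, fun s hs => hw s fun h0 => hs ?_, ?_, ?_⟩
      · rw [Finsupp.smul_apply, h0, smul_zero]
      · rw [map_smul, norm_smul, Real.norm_eq_abs, abs_div, hc, abs_norm,
          one_div, inv_mul_cancel₀ hpos.ne']
      · rw [map_smul, map_smul, smul_eq_mul, div_mul_eq_mul_div, hcu, le_div_iff₀ hpos]
        exact hlt.le
    rcases le_total 0 (u (toY T w)) with h | h
    · exact key 1 abs_one (by rw [one_mul, abs_of_nonneg h])
    · exact key (-1) (by rw [abs_neg, abs_one]) (by rw [neg_one_mul, abs_of_nonpos h])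
  have h2 : ∀ m : ℕ, ∃ w : EE, (∀ s, w s ≠ 0 → s ∈ Gt t 0) ∧ ‖toY T w‖ ^ 2 ≤ m ∧
      m * ε ≤ u (toY T w) := by
    intro m
    induction m with
    | zero =>
      refine ⟨0, fun s hs => absurd rfl hs, ?_, ?_⟩
      · rw [map_zero, norm_zero]; norm_num
      · rw [map_zero, map_zero]; norm_num
    | succ m ih =>
      obtain ⟨v, hv, hv2, hv3⟩ := ih
      have hev : ∀ᶠ N in atTop, ∀ s ∈ v.support, s ∉ Gt t N :=
        (Filter.eventually_all_finset _).2 fun s _ => eventually_not_mem_Gt t s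
      obtain ⟨N, hN⟩ := hev.exists
      obtain ⟨w, hw, hw2, hw3⟩ := h1 N
      refine ⟨v + w, ?_, ?_, ?_⟩
      · intro s hs
        by_cases hvs : v s = 0
        · refine Gt_mono (Nat.zero_le N) (hw s fun h0 => hs ?_)
          rw [Finsupp.add_apply, hvs, h0, add_zero]
        · exact hv s hvs
      · have h3 := upper_toY T (v := v) (w := w) (fun s s' hs hs' => by
          obtain ⟨k, _, hk⟩ := hv s hs
          obtain ⟨k', hk', hks'⟩ := hw s' hs'
          have hsN : s ∉ Gt t N := hN s (Finsupp.mem_support_iff.2 hs)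
          constructor
          · intro hss
            have := succ_inj (hk.trans hss) hks'
            exact hsN ⟨k, this ▸ hk', hk⟩
          · intro hss
            exact hsN ⟨k', hk', hks'.trans hss⟩)
        have h4 : ‖toY T w‖ ^ 2 ≤ 1 := by
          have := norm_nonneg (toY T w)
          nlinarith
        push_cast
        linarith
      · rw [map_add, map_add]
        push_cast
        linarith
  obtain ⟨m, hm⟩ := exists_nat_gt (‖u‖ ^ 2 / ε ^ 2)
  obtain ⟨w, _, hw2, hw3⟩ := h2 m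
  have hε2 : 0 < ε ^ 2 := by positivity
  rw [div_lt_iff₀ hε2] at hm
  have h5 : u (toY T w) ≤ ‖u‖ * ‖toY T w‖ :=
    (le_abs_self _).trans (u.le_opNorm _)
  have hm0 : (0 : ℝ) < m := by
    rcases Nat.eq_zero_or_pos m with h | h
    · subst h
      have := sq_nonneg ‖u‖
      simp only [Nat.cast_zero, zero_mul] at hm
      linarith
    · exact_mod_cast h
  have h6 : ((m : ℝ) * ε) ^ 2 ≤ (‖u‖ * ‖toY T w‖) ^ 2 :=
    pow_le_pow_left₀ (by positivity) (hw3.trans h5) 2
  have h7 : (‖u‖ * ‖toY T w‖) ^ 2 ≤ ‖u‖ ^ 2 * m := by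
    rw [mul_pow]
    exact mul_le_mul_of_nonneg_left hw2 (sq_nonneg _)
  have h8 : (m : ℝ) * (m * ε ^ 2) ≤ ‖u‖ ^ 2 * m := by nlinarith
  have h9 : (m : ℝ) * ε ^ 2 ≤ ‖u‖ ^ 2 := by
    have : (m : ℝ) * (m * ε ^ 2) ≤ m * ‖u‖ ^ 2 := by linarith
    exact le_of_mul_le_mul_left this hm0
  linarith

/-- A function supported above `t` is the sum of its value at `t`, its parts above the first
successors, and the part above the far successors. -/
lemma decomp (t : List ℕ) (N : ℕ) {w : EE} (hw : ∀ s, w s ≠ 0 → t <:+ s) :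
    w = w t • ev t + ∑ k ∈ range N, pr (Su (k :: t)) w + pr (Gt t N) w := by
  ext s
  rw [Finsupp.add_apply, Finsupp.add_apply, Finsupp.smul_apply, Finsupp.finsetSum_apply]
  by_cases hs : t <:+ s
  · by_cases hst : s = t
    · subst hst
      have h1 : ∀ k : ℕ, ¬ (k :: s) <:+ s := fun k h => by
        have := h.length_le
        simp at this
      have h5 : s ∉ Gt s N := fun ⟨k, _, hk⟩ => h1 k hk
      rw [ev_self, smul_eq_mul, mul_one, sum_eq_zero fun k _ => pr_not_mem _ (h1 k),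
        pr_not_mem _ h5, add_zero, add_zero]
    · have h2 : ∃ k : ℕ, (k :: t) <:+ s := by
        obtain ⟨l, hl⟩ := hs
        rcases List.eq_nil_or_concat l with h | ⟨l', k, h⟩
        · subst h
          exact absurd hl.symm (by simpa using hst)
        · refine ⟨k, l', ?_⟩
          rw [← hl, h]
          simp
      obtain ⟨k, hk⟩ := h2
      rw [ev_ne hst, smul_zero, zero_add]
      by_cases hkN : k < N
      · rw [sum_eq_single k, pr_mem w (show s ∈ Su (k :: t) from hk), pr_not_mem, add_zero]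
        · rintro ⟨k', hk', hs'⟩
          have := succ_inj hk hs'
          omega
        · intro k' _ hk'
          exact pr_not_mem _ fun h => hk' (succ_inj (show (k' :: t) <:+ s from h) hk)
        · intro h
          exact absurd (mem_range.2 hkN) h
      · rw [sum_eq_zero, zero_add, pr_mem w (show s ∈ Gt t N from ⟨k, by omega, hk⟩)]
        intro k' hk'
        refine pr_not_mem _ fun h => ?_
        have := succ_inj (show (k' :: t) <:+ s from h) hk
        rw [mem_range] at hk'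
        omega
  · have h0 : w s = 0 := by
      by_contra h
      exact hs (hw s h)
    have h3 : s ≠ t := fun h => hs (h ▸ List.suffix_rfl)
    have h4 : ∀ A : Set (List ℕ), pr A w s = 0 := fun A => by
      by_cases h : s ∈ A
      · rw [pr_mem _ h, h0]
      · rw [pr_not_mem _ h]
    rw [h0, ev_ne h3, smul_zero, sum_eq_zero fun k _ => h4 _, h4]
    norm_num

/-- The approximation above a node. -/
def Cl (T : Set (List ℕ)) (u : StrongDual ℝ (YT T)) (t : List ℕ) : Prop :=
  ∀ ε : ℝ, 0 < ε → ∃ a : EE, ∀ w : EE, (∀ s, w s ≠ 0 → t <:+ s ∧ s ∈ T) →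
    |u (toY T w) - fs T a (toY T w)| ≤ ε * ‖toY T w‖

lemma supp_pr {A : Set (List ℕ)} {w : EE} {s : List ℕ} (h : pr A w s ≠ 0) : s ∈ A ∧ w s ≠ 0 := by
  by_cases hs : s ∈ A
  · exact ⟨hs, by rwa [pr_mem _ hs] at h⟩
  · exact absurd (pr_not_mem _ hs) h

lemma mem_of_suffix {T : Set (List ℕ)} (hc : ∀ k t, k :: t ∈ T → t ∈ T) {t s : List ℕ}
    (h : t <:+ s) (hs : s ∈ T) : t ∈ T := by
  obtain ⟨l, rfl⟩ := h
  induction l with
  | nil => exact hs
  | cons k l ih => exact ih (hc k _ hs)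

lemma Cl_step (T : Set (List ℕ)) (hc : ∀ k t, k :: t ∈ T → t ∈ T) (u : StrongDual ℝ (YT T))
    (t : List ℕ) (ih : ∀ k, k :: t ∈ T → Cl T u (k :: t)) : Cl T u t := by
  intro ε hε
  obtain ⟨N, hN⟩ := exists_far T u t (half_pos hε)
  have hδ : 0 < ε / (2 * (N + 1)) := by positivity
  have h1 : ∀ k : ℕ, ∃ a : EE, ∀ w : EE, (∀ s, w s ≠ 0 → (k :: t) <:+ s ∧ s ∈ T) →
      |u (toY T w) - fs T a (toY T w)| ≤ ε / (2 * (N + 1)) * ‖toY T w‖ := by
    intro k
    by_cases hk : k :: t ∈ T
    · exact ih k hk _ hδ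
    · refine ⟨0, fun w hw => ?_⟩
      have h0 : w = 0 := by
        ext s
        by_contra h
        obtain ⟨h2, h3⟩ := hw s h
        exact hk (mem_of_suffix hc h2 h3)
      rw [h0, map_zero, map_zero, map_zero, sub_zero, abs_zero, norm_zero, mul_zero]
  choose a ha using h1
  refine ⟨Finsupp.single t (u (toY T (ev t))) + ∑ k ∈ range N, pr (Su (k :: t)) (a k),
    fun w hw => ?_⟩
  have hd := decomp t N (w := w) fun s hs => (hw s hs).1
  have e1 : u (toY T w) = w t * u (toY T (ev t)) +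
      ∑ k ∈ range N, u (toY T (pr (Su (k :: t)) w)) + u (toY T (pr (Gt t N) w)) := by
    conv_lhs => rw [hd]
    rw [map_add, map_add, map_add, map_add, map_smul, map_smul, map_sum, map_sum, smul_eq_mul]
  have e2 : fs T (Finsupp.single t (u (toY T (ev t))) +
      ∑ k ∈ range N, pr (Su (k :: t)) (a k)) (toY T w) =
      u (toY T (ev t)) * es T t (toY T w) +
        ∑ k ∈ range N, fs T (a k) (toY T (pr (Su (k :: t)) w)) := by
    rw [map_add, add_apply, fs_single, map_sum, _root_.sum_apply]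
    congr 1
    exact sum_congr rfl fun k _ => fs_pr T _ _ _
  have e3 : w t * u (toY T (ev t)) = u (toY T (ev t)) * es T t (toY T w) := by
    cases t with
    | nil => rw [toY_ev_nil, map_zero, mul_zero, zero_mul]
    | cons k t =>
      by_cases h : k :: t ∈ T
      · rw [es_toY_cons, pr_mem _ h, mul_comm]
      · rw [toY_ev_of_not_mem h, map_zero, mul_zero, zero_mul]
  have e4 : u (toY T w) - fs T (Finsupp.single t (u (toY T (ev t))) +
      ∑ k ∈ range N, pr (Su (k :: t)) (a k)) (toY T w) =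
      ∑ k ∈ range N, (u (toY T (pr (Su (k :: t)) w)) -
        fs T (a k) (toY T (pr (Su (k :: t)) w))) + u (toY T (pr (Gt t N) w)) := by
    rw [e1, e2, e3, sum_sub_distrib]; ring
  rw [e4]
  have f1 : |∑ k ∈ range N, (u (toY T (pr (Su (k :: t)) w)) -
        fs T (a k) (toY T (pr (Su (k :: t)) w)))| ≤ N * (ε / (2 * (N + 1)) * ‖toY T w‖) := by
    refine (abs_sum_le_sum_abs _ _).trans ?_
    refine (sum_le_sum (g := fun _ => ε / (2 * (N + 1)) * ‖toY T w‖) fun k _ => ?_).trans ?_
    · refine (ha k _ fun s hs => ?_).trans ?_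
      · obtain ⟨h2, h3⟩ := supp_pr hs
        exact ⟨h2, (hw s h3).2⟩
      · exact mul_le_mul_of_nonneg_left (norm_toY_up_le T Su_up w) hδ.le
    · rw [sum_const, card_range, nsmul_eq_mul]
  have f2 : |u (toY T (pr (Gt t N) w))| ≤ ε / 2 * ‖toY T w‖ := by
    refine (hN _ fun s hs => (supp_pr hs).1).trans ?_
    exact mul_le_mul_of_nonneg_left (norm_toY_up_le T Gt_up w) (half_pos hε).le
  have f3 : (N : ℝ) * (ε / (2 * (N + 1)) * ‖toY T w‖) ≤ ε / 2 * ‖toY T w‖ := by
    have hn := norm_nonneg (toY T w)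
    have hN1 : (0 : ℝ) < N + 1 := by positivity
    have : (N : ℝ) * (ε / (2 * (N + 1)) * ‖toY T w‖) = (N / (N + 1)) * (ε / 2 * ‖toY T w‖) := by
      field_simp
    rw [this]
    refine mul_le_of_le_one_left (by positivity) ?_
    rw [div_le_one hN1]
    linarith
  have := abs_add_le (∑ k ∈ range N, (u (toY T (pr (Su (k :: t)) w)) -
        fs T (a k) (toY T (pr (Su (k :: t)) w)))) (u (toY T (pr (Gt t N) w)))
  linarith

/-- For a well-founded tree of nodes, the coordinate functionals span a dense subspace of the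
dual. -/
theorem denseRange_fs (T : Set (List ℕ)) (hc : ∀ k t, k :: t ∈ T → t ∈ T)
    (hT : WellFounded fun s t : List ℕ => ∃ k, s = k :: t ∧ s ∈ T) : DenseRange (fs T) := by
  intro u
  rw [Metric.mem_closure_iff]
  intro ε hε
  have hCl : Cl T u [] := by
    refine hT.induction (C := Cl T u) [] fun t ih => ?_
    exact Cl_step T hc u t fun k hk => ih (k :: t) ⟨k, rfl, hk⟩
  obtain ⟨a, ha⟩ := hCl (ε / 2) (half_pos hε)
  refine ⟨fs T a, ⟨a, rfl⟩, ?_⟩
  rw [dist_eq_norm]
  refine lt_of_le_of_lt (ContinuousLinearMap.opNorm_le_bound _ (half_pos hε).le fun y => ?_)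
    (half_lt_self hε)
  refine (denseRange_toY T).induction_on (p := fun y => ‖(u - fs T a) y‖ ≤ ε / 2 * ‖y‖) y
    (isClosed_le (by fun_prop) (by fun_prop)) fun w => ?_
  rw [← toY_pr, sub_apply, Real.norm_eq_abs]
  exact ha _ fun s hs => ⟨List.nil_suffix, (supp_pr hs).1⟩

end Vale.Agent.P069.WT
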