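import Vale.Agent.P069.WT.Tree
import Vale.Agent.P069.WT.Refl
import Vale.Agent.P069.WT.Shrink
import Vale.Agent.P069.WT.Emb
import Vale.Agent.P069.WT.Basis
attribute [-instance] ProperSMul.toContinuousSMul IsTopologicalTorsor.toContinuousSMul IdemSemiring.toCanonicallyOrderedAdd IdemSemiring.toMulLeftMono IdemSemiring.toMulRightMono AddQuantale.instAddLeftMono AddQuantale.instAddRightMono Quantale.instMulLeftMono Quantale.instMulRightMono FiniteDimensional.rclike_to_real IsScalarTower.complexToReal FiniteDimensional.complexToReal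

/-!
# For every separable reflexive space there is a James-tree space whose dual does not embed
-/

open Filter Topology TopologicalSpace

namespace Vale.Agent.P069.WT

open JT

theorem exists_space (W : Type) [NormedAddCommGroup W] [NormedSpace ℝ W] [CompleteSpace W]
    [SeparableSpace W] (hW : IsReflexive W) :
    ∃ T : Set (List ℕ), DenseRange (fs T) ∧ IsReflexive (YT T) ∧
      (∀ n, GoodTree (StrongDual ℝ (YT T)) 1 n) ∧
      (∀ n, H778.EmbedsWith (H778.tree n) (StrongDual ℝ (YT T)) (Real.sqrt 2)) ∧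
      H778.HasMonotoneBasis (StrongDual ℝ (YT T)) ∧
      ¬ ∃ (J : StrongDual ℝ (YT T) →L[ℝ] W) (c : ℝ), 0 < c ∧ ∀ z, c * ‖z‖ ≤ ‖J z‖ := by
  choose A lab h1 h2 h3 using fun m : ℕ => exists_tree W hW (1 / ((m : ℝ) + 1)) (by positivity)
  let 𝒯 : ℕ → Set (List ℕ) := fun n => if n % 2 = 0 then A (n / 2) else {t | t.length ≤ n / 2}
  let L : ℕ → List ℕ → Ordinal.{0} := fun n t => if n % 2 = 0 then lab (n / 2) t else
    ((n / 2 - t.length : ℕ) : Ordinal.{0})
  have e0 : ∀ m, 𝒯 (2 * m) = A m := fun m => by
    simp only [𝒯]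
    rw [if_pos (by omega), show 2 * m / 2 = m by omega]
  have e1 : ∀ m, 𝒯 (2 * m + 1) = {t | t.length ≤ m} := fun m => by
    simp only [𝒯]
    rw [if_neg (by omega), show (2 * m + 1) / 2 = m by omega]
  have hcl : ∀ m k t, k :: t ∈ 𝒯 m → t ∈ 𝒯 m := by
    intro m k t
    simp only [𝒯]
    split_ifs with h
    · exact fun ht => (h2 _ k t ht).1
    · intro ht
      have ht' : (k :: t).length ≤ m / 2 := ht
      rw [List.length_cons] at ht'
      change t.length ≤ m / 2
      omega
  have hL : ∀ m k t, k :: t ∈ 𝒯 m → L m (k :: t) < L m t := by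
    intro m k t
    simp only [𝒯, L]
    split_ifs with h
    · exact fun ht => (h2 _ k t ht).2
    · intro ht
      have ht' : (k :: t).length ≤ m / 2 := ht
      rw [List.length_cons] at ht' ⊢
      rw [Nat.cast_lt]
      omega
  have hD : DenseRange (fs (join 𝒯)) := denseRange_fs _ (join_closed hcl) (wf_join L hL)
  have hR := isReflexive_YT hD
  have hfull : ∀ n (t : List ℕ), t.length ≤ n → t ++ [2 * n + 1] ∈ join 𝒯 := fun n t ht => by
    rw [append_mem_join, e1]
    exact ht
  refine ⟨join 𝒯, hD, hR, fun n => goodTree hR (2 * n + 1) n (hfull n),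
    fun n => embeds_tree (2 * n + 1) n (hfull n),
    hasMonotoneBasis (join_closed hcl) (Set.infinite_of_injective_forall_mem
      (f := fun n : ℕ => ([] : List ℕ) ++ [2 * n + 1]) (fun a b h => by
        have h' : [2 * a + 1] = [2 * b + 1] := h
        have := (List.cons.inj h').1
        omega) fun n => hfull n [] (Nat.zero_le _)) hD,
    not_embeds hR (A := A) (fun m => 2 * m) (fun m k t hk => ?_) h3⟩
  · rw [append_mem_join, e0]
    exact hk

end Vale.Agent.P069.WT
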