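import Vale.Agent.P069.JT.Key
import Vale.Agent.P069.JT.Dual
attribute [-instance] ProperSMul.toContinuousSMul IsTopologicalTorsor.toContinuousSMul IdemSemiring.toCanonicallyOrderedAdd IdemSemiring.toMulLeftMono IdemSemiring.toMulRightMono AddQuantale.instAddLeftMono AddQuantale.instAddRightMono Quantale.instMulLeftMono Quantale.instMulRightMono FiniteDimensional.rclike_to_real IsScalarTower.complexToReal FiniteDimensional.complexToReal

/-!
# The James-tree norm on finitely supported functions on the countably branching tree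
-/

open Filter Topology TopologicalSpace Finset
open scoped ENNReal

namespace Vale.Agent.P069.WT

open JT

/-- The finitely supported functions on the tree. -/
abbrev EE : Type := List ℕ →₀ ℝ

/-- The sum of `w` along the path from the root (excluded) to the node. -/
def cu (w : List ℕ → ℝ) : List ℕ → ℝ
  | [] => 0
  | k :: t => cu w t + w (k :: t)

lemma cu_nil (w : List ℕ → ℝ) : cu w [] = 0 := rfl

lemma cu_cons (w : List ℕ → ℝ) (k : ℕ) (t : List ℕ) : cu w (k :: t) = cu w t + w (k :: t) := rfl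

lemma cu_add (v w : List ℕ → ℝ) (t : List ℕ) : cu (v + w) t = cu v t + cu w t := by
  induction t with
  | nil => simp [cu_nil]
  | cons k t ih => rw [cu_cons, cu_cons, cu_cons, ih, Pi.add_apply]; ring

lemma cu_smul (a : ℝ) (w : List ℕ → ℝ) (t : List ℕ) : cu (a • w) t = a * cu w t := by
  induction t with
  | nil => simp [cu_nil]
  | cons k t ih => rw [cu_cons, cu_cons, ih, Pi.smul_apply, smul_eq_mul]; ring

/-- The sum of `w` over the segment `p = (s, t]`. -/
def df (w : List ℕ → ℝ) (p : List ℕ × List ℕ) : ℝ := cu w p.2 - cu w p.1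

lemma df_add (v w : List ℕ → ℝ) (p : List ℕ × List ℕ) : df (v + w) p = df v p + df w p := by
  simp only [df, cu_add]; ring

lemma df_smul (a : ℝ) (w : List ℕ → ℝ) (p : List ℕ × List ℕ) : df (a • w) p = a * df w p := by
  simp only [df, cu_smul]; ring

/-- The nodes of the segment. -/
def nod (p : List ℕ × List ℕ) : Finset (List ℕ) :=
  p.2.tails.toFinset.filter fun u => ¬ u <:+ p.1

lemma mem_nod {p : List ℕ × List ℕ} {u : List ℕ} : u ∈ nod p ↔ On u p := by
  rw [nod, mem_filter, List.mem_toFinset, List.mem_tails, On]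

lemma df_eq_sum' (w : List ℕ → ℝ) (s l : List ℕ) :
    df w (s, l ++ s) = ∑ u ∈ nod (s, l ++ s), w u := by
  induction l with
  | nil =>
    have h : nod (s, [] ++ s) = ∅ := by
      rw [Finset.eq_empty_iff_forall_notMem]
      intro u hu
      rw [mem_nod] at hu
      exact hu.2 hu.1
    rw [h, sum_empty, df]
    simp
  | cons k l ih =>
    have h1 : df w (s, (k :: l) ++ s) = df w (s, l ++ s) + w (k :: (l ++ s)) := by
      simp only [df, List.cons_append, cu_cons]; ring
    rw [h1, ih]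
    have hns : ¬ k :: (l ++ s) <:+ s := fun h => by
      have := h.length_le
      simp at this
    have hnl : k :: (l ++ s) ∉ nod (s, l ++ s) := fun h => by
      rw [mem_nod] at h
      have := h.1.length_le
      simp at this
    have h2 : nod (s, (k :: l) ++ s) = insert (k :: (l ++ s)) (nod (s, l ++ s)) := by
      ext u
      rw [mem_insert, mem_nod, mem_nod, On, On, List.cons_append, List.suffix_cons_iff]
      constructor
      · rintro ⟨h3 | h3, h4⟩
        · exact Or.inl h3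
        · exact Or.inr ⟨h3, h4⟩
      · rintro (h3 | ⟨h3, h4⟩)
        · subst h3
          exact ⟨Or.inl rfl, hns⟩
        · exact ⟨Or.inr h3, h4⟩
    rw [h2, sum_insert hnl, add_comm]

lemma df_eq_sum (w : List ℕ → ℝ) {p : List ℕ × List ℕ} (hp : p.1 <:+ p.2) :
    df w p = ∑ u ∈ nod p, w u := by
  obtain ⟨s, t⟩ := p
  obtain ⟨l, hl⟩ := hp
  change l ++ s = t at hl
  subst hl
  exact df_eq_sum' w s l

/-- The `ℓ¹`-norm. -/
noncomputable def l1 (w : EE) : ℝ := ∑ u ∈ w.support, |w u|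

lemma l1_nonneg (w : EE) : 0 ≤ l1 w := sum_nonneg fun _ _ => abs_nonneg _

lemma sum_abs_le_l1 (w : EE) (s : Finset (List ℕ)) : ∑ u ∈ s, |w u| ≤ l1 w := by
  classical
  have h1 : ∑ u ∈ s, |w u| = ∑ u ∈ s ∩ w.support, |w u| := by
    symm
    refine sum_subset inter_subset_left fun u hu hu2 => ?_
    rw [mem_inter, not_and] at hu2
    have := hu2 hu
    rw [Finsupp.mem_support_iff, not_not] at this
    rw [this, abs_zero]
  rw [h1]
  exact sum_le_sum_of_subset_of_nonneg inter_subset_right fun _ _ _ => abs_nonneg _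

lemma sum_df_sq_le (w : EE) {ι : Type} [Fintype ι] {S : ι → List ℕ × List ℕ}
    (hS : IsSys S) : ∑ i, df w (S i) ^ 2 ≤ l1 w ^ 2 := by
  classical
  calc ∑ i, df w (S i) ^ 2 ≤ ∑ i, (∑ u ∈ nod (S i), |w u|) ^ 2 := by
        refine sum_le_sum fun i _ => ?_
        rw [df_eq_sum _ (hS.1 i)]
        exact sq_le_sq' (by
          have := abs_sum_le_sum_abs (fun u => w u) (nod (S i))
          have h2 := neg_abs_le (∑ u ∈ nod (S i), w u)
          linarith) ((le_abs_self _).trans (abs_sum_le_sum_abs _ _))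
    _ ≤ (∑ i, ∑ u ∈ nod (S i), |w u|) ^ 2 := by
        exact sum_sq_le_sq_sum_of_nonneg fun i _ => sum_nonneg fun _ _ => abs_nonneg _
    _ ≤ l1 w ^ 2 := by
        refine pow_le_pow_left₀ (sum_nonneg fun _ _ => sum_nonneg fun _ _ => abs_nonneg _) ?_ 2
        rw [← sum_biUnion]
        · exact sum_abs_le_l1 w _
        · intro i _ j _ hij
          rw [Function.onFun, Finset.disjoint_left]
          intro u hu hv
          rw [mem_nod] at hu hv
          exact hS.2 i j hij u hu hv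

/-- The segment sums of a system. -/
noncomputable def sgs (w : List ℕ → ℝ) (σ : Sy) : EuclideanSpace ℝ (Fin σ.1) :=
  WithLp.toLp 2 fun i => df w (σ.2.1 i)

lemma norm_sgs_sq (w : List ℕ → ℝ) (σ : Sy) :
    ‖sgs w σ‖ ^ 2 = ∑ i, df w (σ.2.1 i) ^ 2 := by
  rw [EuclideanSpace.norm_sq_eq]
  refine sum_congr rfl fun i _ => ?_
  rw [sgs, Real.norm_eq_abs, sq_abs]

lemma norm_sgs_le (w : EE) (σ : Sy) : ‖sgs w σ‖ ≤ l1 w := by
  refine le_of_sq_le_sq ?_ (l1_nonneg w)
  rw [norm_sgs_sq]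
  exact sum_df_sq_le w σ.2.2

/-- The operator of segment sums. -/
noncomputable def SI : EE →ₗ[ℝ] BJ where
  toFun w := ⟨fun σ => sgs w σ, memℓp_infty ⟨l1 w, by
    rintro _ ⟨σ, rfl⟩; exact norm_sgs_le w σ⟩⟩
  map_add' v w := by
    ext σ i
    exact df_add v w _
  map_smul' a w := by
    ext σ i
    exact df_smul a w _

lemma SI_apply (w : EE) (σ : Sy) : SI w σ = sgs w σ := rfl

/-- The bound for arbitrary finite systems. -/
lemma sum_le_SI (w : EE) {ι : Type} [Fintype ι] {S : ι → List ℕ × List ℕ}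
    (hS : IsSys S) : ∑ i, df w (S i) ^ 2 ≤ ‖SI w‖ ^ 2 := by
  let e := Fintype.equivFin ι
  let σ : Sy := ⟨Fintype.card ι, fun j => S (e.symm j), fun j => hS.1 _, fun i j hij =>
    hS.2 _ _ fun h => hij (e.symm.injective h)⟩
  have h1 : ∑ i, df w (S i) ^ 2 = ‖sgs w σ‖ ^ 2 := by
    rw [norm_sgs_sq]
    exact (Equiv.sum_comp e.symm fun i => df w (S i) ^ 2).symm
  rw [h1, ← SI_apply]
  have h2 : ‖SI w σ‖ ≤ ‖SI w‖ := lp.norm_apply_le_norm (by norm_num) (SI w) σ
  gcongr

lemma SI_le {w : EE} {C : ℝ}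
    (h : ∀ (m : ℕ) (S : Fin m → List ℕ × List ℕ), IsSys S → ∑ i, df w (S i) ^ 2 ≤ C) :
    ‖SI w‖ ^ 2 ≤ C := by
  have hC : 0 ≤ C := by
    have := h 0 (fun i => ([], [])) ⟨fun i => i.elim0, fun i => i.elim0⟩
    simpa using this
  have h1 : ‖SI w‖ ≤ Real.sqrt C := by
    refine lp.norm_le_of_forall_le (Real.sqrt_nonneg _) fun σ => ?_
    refine Real.le_sqrt_of_sq_le ?_
    rw [SI_apply, norm_sgs_sq]
    exact h _ _ σ.2.2
  calc ‖SI w‖ ^ 2 ≤ (Real.sqrt C) ^ 2 := by gcongr
    _ = C := Real.sq_sqrt hC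

/-- The restriction of a function to a set. -/
noncomputable def pr (A : Set (List ℕ)) : EE →ₗ[ℝ] EE := by
  classical
  exact
  { toFun := fun w => w.filter (· ∈ A)
    map_add' := fun v w => Finsupp.filter_add
    map_smul' := fun a w => Finsupp.filter_smul }

lemma pr_mem {A : Set (List ℕ)} (w : EE) {t : List ℕ} (h : t ∈ A) : pr A w t = w t := by
  classical
  exact Finsupp.filter_apply_pos _ _ h

lemma pr_not_mem {A : Set (List ℕ)} (w : EE) {t : List ℕ} (h : t ∉ A) : pr A w t = 0 := by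
  classical
  exact Finsupp.filter_apply_neg _ _ h

lemma pr_comm (A B : Set (List ℕ)) (w : EE) : pr A (pr B w) = pr B (pr A w) := by
  ext t
  by_cases hA : t ∈ A <;> by_cases hB : t ∈ B
  · rw [pr_mem _ hA, pr_mem _ hB, pr_mem _ hB, pr_mem _ hA]
  · rw [pr_mem _ hA, pr_not_mem _ hB, pr_not_mem _ hB]
  · rw [pr_not_mem _ hA, pr_mem _ hB, pr_not_mem _ hA]
  · rw [pr_not_mem _ hA, pr_not_mem _ hB]

lemma pr_pr (A : Set (List ℕ)) (w : EE) : pr A (pr A w) = pr A w := by
  ext t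
  by_cases hA : t ∈ A
  · rw [pr_mem _ hA]
  · rw [pr_not_mem _ hA, pr_not_mem _ hA]

lemma pr_eq_self {A : Set (List ℕ)} {w : EE} (h : ∀ t, t ∉ A → w t = 0) : pr A w = w := by
  ext t
  by_cases hA : t ∈ A
  · rw [pr_mem _ hA]
  · rw [pr_not_mem _ hA, h t hA]

section vv

variable {D : Finset (List ℕ)}

lemma cu_pr (hD : ∀ k t, k :: t ∈ D → t ∈ D) (w : EE) (t : List ℕ) :
    cu (pr (D : Set (List ℕ)) w) t = cu w (vv D t) := by
  induction t with
  | nil => rfl
  | cons k t ih =>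
    rw [cu_cons, ih]
    by_cases h : k :: t ∈ D
    · rw [vv_of_mem h, vv_of_mem (hD k t h), pr_mem _ (mem_coe.2 h), cu_cons]
    · rw [vv_of_not_mem h, pr_not_mem _ (fun h' => h (mem_coe.1 h')), add_zero]

lemma cu_supp {f : EE} (hf : ∀ t, t ∉ D → f t = 0) (t : List ℕ) : cu f t = cu f (vv D t) := by
  induction t with
  | nil => rfl
  | cons k t ih =>
    by_cases h : k :: t ∈ D
    · rw [vv_of_mem h]
    · rw [vv_of_not_mem h, ← ih, cu_cons, hf _ h, add_zero]

lemma cu_sub (v w : EE) (t : List ℕ) : cu (v - w : EE) t = cu v t - cu w t := by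
  have h1 : ((v - w : EE) : List ℕ → ℝ) = (v : List ℕ → ℝ) + (-1 : ℝ) • (w : List ℕ → ℝ) := by
    ext s
    simp [sub_eq_add_neg]
  rw [h1, cu_add, cu_smul]
  ring

lemma cu_lin (a c : ℝ) (v w : EE) (t : List ℕ) :
    cu (a • v + c • w : EE) t = a * cu v t + c * cu w t := by
  have h1 : ((a • v + c • w : EE) : List ℕ → ℝ) =
      a • (v : List ℕ → ℝ) + c • (w : List ℕ → ℝ) := by
    ext s
    simp
  rw [h1, cu_add, cu_smul, cu_smul]

lemma df_pr (hD : ∀ k t, k :: t ∈ D → t ∈ D) (w : EE) (p : List ℕ × List ℕ) :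
    df (pr (D : Set (List ℕ)) w) p = df w (Din D p) := by
  rw [df, df, cu_pr hD, cu_pr hD, Din]

lemma df_sub_pr (hD : ∀ k t, k :: t ∈ D → t ∈ D) (w : EE)
    {p : List ℕ × List ℕ} (hp : p.1 <:+ p.2) :
    df (w - pr (D : Set (List ℕ)) w : EE) p = df w (Dout D p) := by
  rw [df, df, cu_sub, cu_sub, cu_pr hD, cu_pr hD, Dout]
  simp only
  split_ifs with hs
  · rw [vv_of_mem hs]; ring
  · rw [vv_eq_of_not_mem hD hp hs]; ring

end vv

/-- **Lower `2`-estimate**. -/
theorem lower_two {D : Finset (List ℕ)} (h0 : [] ∈ D) (hD : ∀ k t, k :: t ∈ D → t ∈ D)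
    (w : EE) :
    ‖SI (pr (D : Set (List ℕ)) w)‖ ^ 2 + ‖SI (w - pr (D : Set (List ℕ)) w)‖ ^ 2 ≤ ‖SI w‖ ^ 2 := by
  have h2 : ∀ (m₂ : ℕ) (S₂ : Fin m₂ → List ℕ × List ℕ), IsSys S₂ →
      ∑ i, df (w - pr (D : Set (List ℕ)) w : EE) (S₂ i) ^ 2 ≤
        ‖SI w‖ ^ 2 - ‖SI (pr (D : Set (List ℕ)) w)‖ ^ 2 := by
    intro m₂ S₂ hS₂
    have h3 : ‖SI (pr (D : Set (List ℕ)) w)‖ ^ 2 ≤
        ‖SI w‖ ^ 2 - ∑ i, df (w - pr (D : Set (List ℕ)) w : EE) (S₂ i) ^ 2 := by
      refine SI_le fun m₁ S₁ hS₁ => ?_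
      have hS : IsSys (Sum.elim (fun i => Din D (S₁ i)) fun i => Dout D (S₂ i)) := by
        constructor
        · rintro (i | i)
          · exact vv_suffix_vv h0 (hS₁.1 i)
          · exact suffix_Dout (hS₂.1 i)
        · rintro (i | i) (j | j) hij u hi hj
          · exact hS₁.2 i j (fun h => hij (by rw [h])) u (on_Din h0 hD hi).2
              (on_Din h0 hD hj).2
          · exact (on_Dout hD (hS₂.1 j) hj).1 (on_Din h0 hD hi).1
          · exact (on_Dout hD (hS₂.1 i) hi).1 (on_Din h0 hD hj).1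
          · exact hS₂.2 i j (fun h => hij (by rw [h])) u (on_Dout hD (hS₂.1 i) hi).2
              (on_Dout hD (hS₂.1 j) hj).2
      have h4 := sum_le_SI w hS
      rw [Fintype.sum_sum_type] at h4
      simp only [Sum.elim_inl, Sum.elim_inr] at h4
      simp only [df_pr hD]
      have h5 : ∑ i, df (w - pr (D : Set (List ℕ)) w : EE) (S₂ i) ^ 2 =
          ∑ i, df w (Dout D (S₂ i)) ^ 2 :=
        sum_congr rfl fun i _ => by rw [df_sub_pr hD w (hS₂.1 i)]
      rw [h5]
      linarith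
    linarith
  have h3 := SI_le h2
  linarith

lemma norm_pr_le {D : Finset (List ℕ)} (h0 : [] ∈ D) (hD : ∀ k t, k :: t ∈ D → t ∈ D)
    (w : EE) : ‖SI (pr (D : Set (List ℕ)) w)‖ ≤ ‖SI w‖ := by
  refine le_of_sq_le_sq ?_ (norm_nonneg _)
  have h1 := lower_two h0 hD w
  have h2 := sq_nonneg ‖SI (w - pr (D : Set (List ℕ)) w)‖
  linarith

lemma norm_sub_pr_le {D : Finset (List ℕ)} (h0 : [] ∈ D) (hD : ∀ k t, k :: t ∈ D → t ∈ D)
    (w : EE) : ‖SI (w - pr (D : Set (List ℕ)) w)‖ ≤ ‖SI w‖ := by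
  refine le_of_sq_le_sq ?_ (norm_nonneg _)
  have h1 := lower_two h0 hD w
  have h2 := sq_nonneg ‖SI (pr (D : Set (List ℕ)) w)‖
  linarith

/-- The restriction to a set closed under extension is a contraction. -/
lemma norm_pr_up_le {G : Set (List ℕ)} (hG : ∀ k t, t ∈ G → k :: t ∈ G) (w : EE) :
    ‖SI (pr G w)‖ ≤ ‖SI w‖ := by
  classical
  by_cases hn : [] ∈ G
  · have : pr G w = w := pr_eq_self fun t ht => by
      exfalso
      apply ht
      clear ht
      induction t with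
      | nil => exact hn
      | cons k t ih => exact hG _ _ ih
    rw [this]
  · obtain ⟨D₀, hs, h0, hD⟩ := exists_closure w.support
    let D : Finset (List ℕ) := D₀.filter (· ∉ G)
    have h0' : [] ∈ D := mem_filter.2 ⟨h0, hn⟩
    have hD' : ∀ k t, k :: t ∈ D → t ∈ D := fun k t h => by
      rw [mem_filter] at h ⊢
      exact ⟨hD k t h.1, fun h2 => h.2 (hG _ _ h2)⟩
    have : pr G w = w - pr (D : Set (List ℕ)) w := by
      ext t
      rw [Finsupp.sub_apply]
      by_cases h : t ∈ G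
      · have h1 : t ∉ (D : Set (List ℕ)) := fun h2 => (mem_filter.1 (mem_coe.1 h2)).2 h
        rw [pr_mem _ h, pr_not_mem _ h1, sub_zero]
      · rw [pr_not_mem _ h]
        by_cases h2 : t ∈ D₀
        · have h1 : t ∈ (D : Set (List ℕ)) := mem_coe.2 (mem_filter.2 ⟨h2, h⟩)
          rw [pr_mem _ h1, sub_self]
        · have h3 : w t = 0 := by
            by_contra h4
            exact h2 (hs (Finsupp.mem_support_iff.2 h4))
          have h1 : t ∉ (D : Set (List ℕ)) := fun h5 => h2 (mem_filter.1 (mem_coe.1 h5)).1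
          rw [pr_not_mem _ h1, h3, sub_zero]
    rw [this]
    exact norm_sub_pr_le h0' hD' w

lemma abs_df_le (g : EE) {p : List ℕ × List ℕ} (hp : p.1 <:+ p.2) :
    |df g p| ≤ ‖SI g‖ := by
  have h := sum_le_SI g (ι := Unit) (S := fun _ => p) ⟨fun _ => hp, fun i j hij =>
    absurd (Subsingleton.elim i j) hij⟩
  simp only [Finset.univ_unique, sum_singleton] at h
  exact abs_le_of_sq_le_sq h (norm_nonneg _)

lemma abs_cu_le (g : EE) (t : List ℕ) : |cu g t| ≤ ‖SI g‖ := by
  have h := abs_df_le g (p := ([], t)) List.nil_suffix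
  rwa [df, cu_nil, sub_zero] at h

/-- **Upper `2`-estimate** for functions supported on different branches at a node. -/
theorem upper_two {v w : EE} (h : ∀ s t, v s ≠ 0 → w t ≠ 0 → ¬ s <:+ t ∧ ¬ t <:+ s) :
    ‖SI (v + w)‖ ^ 2 ≤ ‖SI v‖ ^ 2 + ‖SI w‖ ^ 2 := by
  refine SI_le fun m S hS => ?_
  refine le_trans (le_of_eq ?_) (add_le_add (sum_le_SI v hS) (sum_le_SI w hS))
  rw [← sum_add_distrib]
  refine sum_congr rfl fun i _ => ?_
  have h1 : df (v + w : EE) (S i) = df v (S i) + df w (S i) := by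
    rw [Finsupp.coe_add, df_add]
  have h2 : df v (S i) * df w (S i) = 0 := by
    by_contra hne
    have hv : df v (S i) ≠ 0 := left_ne_zero_of_mul hne
    have hw : df w (S i) ≠ 0 := right_ne_zero_of_mul hne
    rw [df_eq_sum _ (hS.1 i)] at hv hw
    obtain ⟨s, hs, hs2⟩ := exists_ne_zero_of_sum_ne_zero hv
    obtain ⟨t, ht, ht2⟩ := exists_ne_zero_of_sum_ne_zero hw
    rw [mem_nod] at hs ht
    have := h s t hs2 ht2
    rcases List.suffix_or_suffix_of_suffix hs.1 ht.1 with h3 | h3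
    · exact this.1 h3
    · exact this.2 h3
  rw [h1]
  nlinarith

/-- A unit vector. -/
noncomputable def ev (t : List ℕ) : EE := Finsupp.single t 1

lemma ev_self (t : List ℕ) : ev t t = 1 := Finsupp.single_eq_same

lemma ev_ne {t s : List ℕ} (h : s ≠ t) : ev t s = 0 := Finsupp.single_eq_of_ne h

lemma norm_SI_ev_le (s : List ℕ) : ‖SI (ev s)‖ ≤ 1 := by
  refine le_of_sq_le_sq ?_ zero_le_one
  refine SI_le fun m S hS => ?_
  have h := sum_df_sq_le (ev s) hS
  have h1 : l1 (ev s) = 1 := by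
    rw [l1, ev, Finsupp.support_single _ one_ne_zero, sum_singleton,
      Finsupp.single_eq_same, abs_one]
  rw [h1] at h
  exact h

end Vale.Agent.P069.WT
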