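import Vale.Agent.P069.WT.Norm
attribute [-instance] ProperSMul.toContinuousSMul IsTopologicalTorsor.toContinuousSMul IdemSemiring.toCanonicallyOrderedAdd IdemSemiring.toMulLeftMono IdemSemiring.toMulRightMono AddQuantale.instAddLeftMono AddQuantale.instAddRightMono Quantale.instMulLeftMono Quantale.instMulRightMono FiniteDimensional.rclike_to_real IsScalarTower.complexToReal FiniteDimensional.complexToReal

/-!
# The James-tree space over a set of nodes, and its coordinate functionals
-/

open Filter Topology TopologicalSpace Finset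
open scoped ENNReal

namespace Vale.Agent.P069.WT

open JT

/-- The closure of the functions supported on `T`, in the James-tree norm. -/
noncomputable def YS (T : Set (List ℕ)) : Submodule ℝ BJ :=
  (LinearMap.range (SI.comp (pr T))).topologicalClosure

/-- The James-tree space over `T`. -/
def YT (T : Set (List ℕ)) : Type := YS T

noncomputable instance (T : Set (List ℕ)) : NormedAddCommGroup (YT T) :=
  inferInstanceAs (NormedAddCommGroup (YS T))

noncomputable instance (T : Set (List ℕ)) : NormedSpace ℝ (YT T) :=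
  inferInstanceAs (NormedSpace ℝ (YS T))

instance (T : Set (List ℕ)) : CompleteSpace (YT T) :=
  (Submodule.isClosed_topologicalClosure _).isComplete.completeSpace_coe

/-- The natural map. -/
noncomputable def toY (T : Set (List ℕ)) : EE →ₗ[ℝ] YT T :=
  (SI.comp (pr T)).codRestrict (YS T) fun w =>
    Submodule.le_topologicalClosure _ (LinearMap.mem_range_self _ w)

lemma norm_toY (T : Set (List ℕ)) (w : EE) : ‖toY T w‖ = ‖SI (pr T w)‖ := rfl

lemma denseRange_toY (T : Set (List ℕ)) : DenseRange (toY T) := by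
  intro y
  rw [Metric.mem_closure_iff]
  intro ε hε
  have h2 : (y.1 : BJ) ∈ closure ((LinearMap.range (SI.comp (pr T)) : Submodule ℝ BJ) : Set BJ) :=
    y.2
  obtain ⟨z, ⟨w, rfl⟩, hz⟩ := Metric.mem_closure_iff.1 h2 ε hε
  exact ⟨toY T w, ⟨w, rfl⟩, hz⟩

lemma toY_pr (T : Set (List ℕ)) (w : EE) : toY T (pr T w) = toY T w := by
  apply Subtype.ext
  change SI (pr T (pr T w)) = SI (pr T w)
  rw [pr_pr]

/-- The system with the single segment `([], t]`. -/
def s1 (t : List ℕ) : Sy :=
  ⟨1, fun _ => ([], t), fun _ => List.nil_suffix, fun i j hij =>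
    absurd (Subsingleton.elim i j) hij⟩

/-- The index of the single segment. -/
def i1 (t : List ℕ) : Fin (s1 t).1 := (0 : Fin 1)

/-- The coordinate functional: the sum along the path to `t`. -/
noncomputable def cc (T : Set (List ℕ)) (t : List ℕ) : StrongDual ℝ (YT T) :=
  LinearMap.mkContinuous
    { toFun := fun y => (y.1 : BJ) (s1 t) (i1 t)
      map_add' := fun _ _ => rfl
      map_smul' := fun _ _ => rfl } 1 (fun y => by
      rw [one_mul]
      refine le_trans ?_ (lp.norm_apply_le_norm (by norm_num) (y.1 : BJ) (s1 t))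
      exact PiLp.norm_apply_le (p := 2) ((y.1 : BJ) (s1 t)) (i1 t))

lemma cc_toY (T : Set (List ℕ)) (t : List ℕ) (w : EE) : cc T t (toY T w) = cu (pr T w) t := by
  change df (pr T w) ([], t) = _
  rw [df, cu_nil, sub_zero]

lemma norm_cc_le (T : Set (List ℕ)) (t : List ℕ) : ‖cc T t‖ ≤ 1 :=
  LinearMap.mkContinuous_norm_le _ zero_le_one _

/-- The value at the node `t`. -/
noncomputable def es (T : Set (List ℕ)) : List ℕ → StrongDual ℝ (YT T)
  | [] => 0
  | k :: t => cc T (k :: t) - cc T t

lemma es_nil (T : Set (List ℕ)) : es T [] = 0 := rfl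

lemma es_cons (T : Set (List ℕ)) (k : ℕ) (t : List ℕ) :
    es T (k :: t) = cc T (k :: t) - cc T t := rfl

lemma es_toY_cons (T : Set (List ℕ)) (k : ℕ) (t : List ℕ) (w : EE) :
    es T (k :: t) (toY T w) = pr T w (k :: t) := by
  rw [es_cons, sub_apply, cc_toY, cc_toY, cu_cons]; ring

lemma norm_es_le (T : Set (List ℕ)) (t : List ℕ) : ‖es T t‖ ≤ 2 := by
  cases t with
  | nil => rw [es_nil, norm_zero]; norm_num
  | cons k t =>
    rw [es_cons]
    refine (norm_sub_le _ _).trans ?_
    have h1 := norm_cc_le T (k :: t)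
    have h2 := norm_cc_le T t
    linarith

/-- The functional with the finitely many coefficients `a`. -/
noncomputable def fs (T : Set (List ℕ)) : EE →ₗ[ℝ] StrongDual ℝ (YT T) :=
  Finsupp.linearCombination ℝ (es T)

lemma fs_apply (T : Set (List ℕ)) (a : EE) (y : YT T) :
    fs T a y = ∑ t ∈ a.support, a t * es T t y := by
  rw [fs, Finsupp.linearCombination_apply, Finsupp.sum, _root_.sum_apply]
  rfl

lemma SI_eq_zero {w : EE} (h : ∀ k t, w (k :: t) = 0) : SI w = 0 := by
  have h : ∀ t, cu w t = 0 := by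
    intro t
    induction t with
    | nil => rfl
    | cons k t ih => rw [cu_cons, ih, zero_add, h]
  have h2 : ‖SI w‖ ^ 2 ≤ 0 := SI_le fun m S hS => by
    refine le_of_eq (sum_eq_zero fun i _ => ?_)
    rw [df, h, h]; norm_num
  have h3 : ‖SI w‖ = 0 := by
    have := sq_nonneg ‖SI w‖
    exact pow_eq_zero_iff two_ne_zero |>.1 (le_antisymm h2 this)
  exact norm_eq_zero.1 h3

lemma toY_ev_nil (T : Set (List ℕ)) : toY T (ev []) = 0 := by
  apply Subtype.ext
  refine SI_eq_zero fun k t => ?_
  by_cases h : k :: t ∈ T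
  · rw [pr_mem _ h, ev_ne (List.cons_ne_nil k t)]
  · rw [pr_not_mem _ h]

lemma toY_ev_of_not_mem {T : Set (List ℕ)} {t : List ℕ} (h : t ∉ T) : toY T (ev t) = 0 := by
  apply Subtype.ext
  refine SI_eq_zero fun k s => ?_
  by_cases h' : k :: s ∈ T
  · rw [pr_mem _ h', ev_ne]
    rintro rfl
    exact h h'
  · rw [pr_not_mem _ h']

lemma norm_toY_ev_le (T : Set (List ℕ)) (t : List ℕ) : ‖toY T (ev t)‖ ≤ 1 := by
  by_cases h : t ∈ T
  · rw [norm_toY, pr_eq_self]
    · exact norm_SI_ev_le t
    · intro s hs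
      exact ev_ne fun h' => hs (h' ▸ h)
  · rw [toY_ev_of_not_mem h, norm_zero]
    exact zero_le_one

/-- Every function is the sum of its values. -/
lemma toY_pr_finset (T : Set (List ℕ)) (D : Finset (List ℕ)) (w : EE) :
    toY T (pr (D : Set (List ℕ)) w) = ∑ t ∈ D, w t • toY T (ev t) := by
  classical
  have h : pr (D : Set (List ℕ)) w = ∑ t ∈ D, w t • ev t := by
    ext s
    rw [Finsupp.finsetSum_apply]
    by_cases hs : s ∈ D
    · rw [pr_mem _ (mem_coe.2 hs), sum_eq_single s]
      · rw [Finsupp.smul_apply, ev_self, smul_eq_mul, mul_one]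
      · intro t _ ht
        rw [Finsupp.smul_apply, ev_ne ht.symm, smul_zero]
      · intro h; exact absurd hs h
    · rw [pr_not_mem _ (fun h => hs (mem_coe.1 h))]
      symm
      refine sum_eq_zero fun t ht => ?_
      rw [Finsupp.smul_apply, ev_ne (by rintro rfl; exact hs ht), smul_zero]
  rw [h, map_sum]
  exact sum_congr rfl fun t _ => map_smul _ _ _

lemma norm_toY_pr_le (T : Set (List ℕ)) {D : Finset (List ℕ)} (h0 : [] ∈ D)
    (hD : ∀ k t, k :: t ∈ D → t ∈ D) (w : EE) :
    ‖toY T (pr (D : Set (List ℕ)) w)‖ ≤ ‖toY T w‖ := by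
  rw [norm_toY, norm_toY, pr_comm]
  exact norm_pr_le h0 hD _

lemma toY_lower_two (T : Set (List ℕ)) {D : Finset (List ℕ)} (h0 : [] ∈ D)
    (hD : ∀ k t, k :: t ∈ D → t ∈ D) (w : EE) :
    ‖toY T (pr (D : Set (List ℕ)) w)‖ ^ 2 + ‖toY T (w - pr (D : Set (List ℕ)) w)‖ ^ 2 ≤
      ‖toY T w‖ ^ 2 := by
  have h := lower_two h0 hD (pr T w)
  rw [norm_toY, norm_toY, norm_toY, map_sub, pr_comm T]
  exact h

end Vale.Agent.P069.WT
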