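import Vale.Agent.P069.WT.Dual
import Vale.Agent.P069.WT.Index
import Vale.Agent.P069.JT.Sum
attribute [-instance] ProperSMul.toContinuousSMul IsTopologicalTorsor.toContinuousSMul IdemSemiring.toCanonicallyOrderedAdd IdemSemiring.toMulLeftMono IdemSemiring.toMulRightMono AddQuantale.instAddLeftMono AddQuantale.instAddRightMono Quantale.instMulLeftMono Quantale.instMulRightMono FiniteDimensional.rclike_to_real IsScalarTower.complexToReal FiniteDimensional.complexToReal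

/-!
# Well-founded trees, good trees in the dual, and the spaces without an embedding of the dual
-/

open Filter Topology TopologicalSpace

namespace Vale.Agent.P069.WT

open JT

/-- The trees `𝒯 m` above the children `[m]` of the root. -/
def join (𝒯 : ℕ → Set (List ℕ)) : Set (List ℕ) := {t | t = [] ∨ ∃ m s, t = s ++ [m] ∧ s ∈ 𝒯 m}

lemma append_mem_join {𝒯 : ℕ → Set (List ℕ)} {m : ℕ} {s : List ℕ} :
    s ++ [m] ∈ join 𝒯 ↔ s ∈ 𝒯 m := by
  constructor
  · rintro (h | ⟨m', s', h, h'⟩)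
    · simp at h
    · obtain ⟨h1, h2⟩ := List.append_inj' h rfl
      obtain rfl : m = m' := by simpa using h2
      rwa [h1]
  · exact fun h => Or.inr ⟨m, s, rfl, h⟩

lemma cons_append_mem_join {𝒯 : ℕ → Set (List ℕ)} {k m : ℕ} {s : List ℕ} :
    k :: (s ++ [m]) ∈ join 𝒯 ↔ k :: s ∈ 𝒯 m := by
  rw [← List.cons_append, append_mem_join]

/-- The tree relation: `s` is a child of `t` in `T`. -/
def Child (T : Set (List ℕ)) (s t : List ℕ) : Prop := ∃ k, s = k :: t ∧ s ∈ T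

lemma join_closed {𝒯 : ℕ → Set (List ℕ)} (h : ∀ m k t, k :: t ∈ 𝒯 m → t ∈ 𝒯 m) (k : ℕ)
    (t : List ℕ) (ht : k :: t ∈ join 𝒯) : t ∈ join 𝒯 := by
  rcases List.eq_nil_or_concat' t with rfl | ⟨s, m, rfl⟩
  · exact Or.inl rfl
  · rw [cons_append_mem_join] at ht
    rw [append_mem_join]
    exact h m k s ht

lemma wf_join {𝒯 : ℕ → Set (List ℕ)} (lab : ℕ → List ℕ → Ordinal.{0})
    (h : ∀ m k t, k :: t ∈ 𝒯 m → lab m (k :: t) < lab m t) :
    WellFounded fun s t : List ℕ => ∃ k, s = k :: t ∧ s ∈ join 𝒯 := by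
  have key : ∀ m, ∀ a : Ordinal.{0}, ∀ s, lab m s = a →
      Acc (fun s t : List ℕ => ∃ k, s = k :: t ∧ s ∈ join 𝒯) (s ++ [m]) := by
    intro m a
    induction a using WellFoundedLT.induction with
    | _ a ih =>
      intro s hs
      constructor
      rintro _ ⟨k, rfl, hk⟩
      rw [cons_append_mem_join] at hk
      rw [← List.cons_append]
      exact ih _ (hs ▸ h m k s hk) _ rfl
  constructor
  intro t
  rcases List.eq_nil_or_concat' t with rfl | ⟨s, m, rfl⟩
  · constructor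
    rintro _ ⟨k, rfl, _⟩
    exact key k _ [] rfl
  · exact key m _ s rfl

/-- Good trees in the dual. -/
theorem goodTree {T : Set (List ℕ)} (hr : IsReflexive (YT T)) (m n : ℕ)
    (hT : ∀ t : List ℕ, t.length ≤ n → t ++ [m] ∈ T) : GoodTree (StrongDual ℝ (YT T)) 1 n := by
  refine ⟨fun t => cc T (t ++ [m]), fun t _ => norm_cc_le T _, fun t ht i => ?_,
    fun t _ f => ?_⟩
  · have h1 : i :: (t ++ [m]) ∈ T := by
      rw [← List.cons_append]
      exact hT _ (by rw [List.length_cons]; omega)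
    exact one_le_norm_cc h1
  · exact tendsto_cc hr (t ++ [m]) f

/-- No embedding of the dual into `W`, when `T` contains a tree which is too high for `W`. -/
theorem not_embeds {W : Type} [NormedAddCommGroup W] [NormedSpace ℝ W]
    {T : Set (List ℕ)} (hr : IsReflexive (YT T)) {A : ℕ → Set (List ℕ)} (i : ℕ → ℕ)
    (hA : ∀ m k t, k :: t ∈ A m → (k :: t) ++ [i m] ∈ T)
    (hW : ∀ m : ℕ, ¬ ∃ x : List ℕ → W, (∀ t ∈ A m, ‖x t‖ ≤ 1) ∧
      (∀ k t, k :: t ∈ A m → 1 / ((m : ℝ) + 1) ≤ ‖x (k :: t) - x t‖) ∧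
      (∀ t ∈ A m, ∀ f : StrongDual ℝ W,
        Tendsto (fun k => f (x (k :: t))) (atTop ⊓ 𝓟 {k | k :: t ∈ A m}) (𝓝 (f (x t))))) :
    ¬ ∃ (J : StrongDual ℝ (YT T) →L[ℝ] W) (c : ℝ), 0 < c ∧ ∀ z, c * ‖z‖ ≤ ‖J z‖ := by
  rintro ⟨J, c, hc, hJ⟩
  set M : ℝ := ‖J‖ + 1 with hM
  have hM0 : 0 < M := by positivity
  obtain ⟨m, hm⟩ := exists_nat_one_div_lt (show 0 < M⁻¹ * c by positivity)
  refine hW m ⟨fun t => M⁻¹ • J (cc T (t ++ [i m])), fun t _ => ?_, fun k t hk => ?_,
    fun t _ f => ?_⟩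
  · rw [norm_smul, norm_inv, Real.norm_of_nonneg hM0.le, inv_mul_le_iff₀ hM0, mul_one]
    refine (J.le_opNorm _).trans ?_
    have h1 := norm_cc_le T (t ++ [i m])
    have h2 := norm_nonneg J
    nlinarith
  · rw [← smul_sub, ← map_sub, norm_smul, norm_inv, Real.norm_of_nonneg hM0.le]
    have h1 : k :: (t ++ [i m]) ∈ T := hA m k t hk
    have h2 := one_le_norm_cc h1
    have h3 := hJ (cc T (k :: (t ++ [i m])) - cc T (t ++ [i m]))
    have h4 : c ≤ ‖J (cc T (k :: (t ++ [i m])) - cc T (t ++ [i m]))‖ := by nlinarith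
    have h5 := mul_le_mul_of_nonneg_left h4 (inv_nonneg.2 hM0.le)
    exact hm.le.trans h5
  · refine Tendsto.mono_left ?_ inf_le_left
    have h1 := tendsto_cc hr (t ++ [i m]) (f.comp J)
    have h2 := (h1.const_mul M⁻¹).add_const (M⁻¹ * f (J (cc T (t ++ [i m]))))
    rw [mul_zero, zero_add] at h2
    have h3 : f (M⁻¹ • J (cc T (t ++ [i m]))) = M⁻¹ * f (J (cc T (t ++ [i m]))) := by
      rw [map_smul, smul_eq_mul]
    rw [h3]
    refine h2.congr fun k => ?_
    change M⁻¹ * f (J (cc T (k :: (t ++ [i m])) - cc T (t ++ [i m]))) +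
      M⁻¹ * f (J (cc T (t ++ [i m]))) = f (M⁻¹ • J (cc T (k :: (t ++ [i m]))))
    rw [map_sub, map_sub, map_smul, smul_eq_mul]
    ring

end Vale.Agent.P069.WT
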